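import Vale.Agent.N323C.Defs

/-! Dependent choice along an ordinal, as a formula of first-order set theory. -/

namespace Vale.Agent.N323D

open Vale.Agent.N323C.S

/-- `DC_κ`: if for each `β ∈ κ` and each `s : β → S` there is `y ∈ S` with `s R y`, then there is
`f : κ → S` with `s R f(β)` for each `β ∈ κ`, where `s : β → S` is the restriction of `f`. -/
def dck (κ : ℕ) : F := all fun S => all fun R =>
  (all fun β => all fun s => (mem β κ).imp ((func s β S).imp
    (ex fun y => (mem y S).and (ap R s y)))).imp
  (ex fun f => (func f κ S).and (all fun β => all fun s => all fun y =>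
    (mem β κ).imp ((func s β S).imp ((sub s f).imp ((ap f β y).imp (ap R s y))))))

/-- `κ = ω₁`: an ordinal that does not inject into `ω`, while each of its members does -/
def omega1 (κ : ℕ) : F := ex fun w => (omega w).and ((ord κ).and
  ((ex fun j => inj j κ w).not.and (all fun β => (mem β κ).imp (ex fun j => inj j β w))))

/-- `DC_{ω₁}` -/
def dc1 : F := all fun κ => (omega1 κ).imp (dck κ)

end Vale.Agent.N323D
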