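import Vale.Agent.N323D.Force

/-!
# The sentence on the relation without long increasing chains is valid in the forcing model
-/

namespace Vale.Agent.N323D

open CategoryTheory Vale.Agent.P323.Z Vale.Agent.P323.F Vale.Agent.P323.Z.Fml NameTheory
open Vale.Agent.N323C hiding op
open Vale.Agent.P323.H341 (Z1)

/-- each nonempty member of `o` has a maximal element -/
def maxF {n : ℕ} (o : Fin n) : Fml n :=
  all (imp (mem la (up o)) (all (imp (mem la (up la)) (ex (and (mem la (up (up la)))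
    (all (imp (mem la (up (up (up la)))) (neg (mem (up la) la)))))))))

/-- each member of `p` is an image of a subset of `o` -/
def cntF {n : ℕ} (p o : Fin n) : Fml n :=
  all (imp (mem la (up p)) (ex (ex (and (subF (up la) (up (up (up o))))
    (surjectionF la (up la) (up (up la)))))))

/-- the values of a function at the members of `p` have an upper bound -/
def ubF {n : ℕ} (p S L : Fin n) : Fml n :=
  all (all (imp (functionF la (up la) (up (up S))) (ex (and (mem la (up (up (up S))))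
    (all (all (imp (mem (up la) (up (up (up (up (up p))))))
      (imp (pairMemF (up la) la (up (up (up la))))
        (pairMemF la (up (up la)) (up (up (up (up (up L))))))))))))))

/-- `h` is increasing on `p` -/
def upF {n : ℕ} (h p L : Fin n) : Fml n :=
  all (all (all (all (imp (mem (up (up (up la))) (up (up (up (up p)))))
    (imp (mem (up (up (up la))) (up (up la)))
      (imp (pairMemF (up (up (up la))) (up la) (up (up (up (up h)))))
        (imp (pairMemF (up (up la)) la (up (up (up (up h)))))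
          (pairMemF (up la) la (up (up (up (up L))))))))))))

/-- no function is increasing on `p` -/
def incF {n : ℕ} (p S L : Fin n) : Fml n :=
  all (all (imp (functionF la (up la) (up (up S))) (imp (subF (up (up p)) (up la))
    (neg (upF la (up (up p)) (up (up L)))))))

/-- the sentence -/
def ndcF : Fml 0 :=
  ex (ex (ex (ex (and (ordF (up (up (up la)))) (and (maxF (up (up (up la))))
    (and (ordF (up (up la))) (and (cntF (up (up la)) (up (up (up la))))
      (and (ubF (up (up la)) (up la) la) (incF (up (up la)) (up la) la)))))))))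

theorem sat_ndcF {M : Type*} (E : M → M → Prop) (v : Fin 0 → M) : ndcF.Sat E v ↔
    ∃ o p S L, Ord E o ∧ (∀ n, E n o → ∀ x, E x n → ∃ m, E m n ∧ ∀ z, E z n → ¬ E m z) ∧
      Ord E p ∧ (∀ β, E β p → ∃ Y f, Sub E Y o ∧ IsSurjection E f Y β) ∧
      (∀ β h, IsFunction E h β S → ∃ y, E y S ∧ ∀ x z, E x p → PairMem E x z h → PairMem E z y L) ∧
      ∀ β h, IsFunction E h β S → Sub E p β → ¬ ∀ x x' z z', E x p → E x x' → PairMem E x z h →
        PairMem E x' z' h → PairMem E z z' L := by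
  simp only [ndcF, maxF, cntF, ubF, upF, incF, sat_all, sat_imp, sat_ex, sat_and, sat_neg, sat_mem,
    sat_subF, sat_ordF, sat_pairMemF, sat_functionF, sat_surjectionF, Fin.snoc_castSucc,
    Fin.snoc_last]

/-- the first uncountable ordinal -/
noncomputable def w1 : Ordinal.{0} := (Order.succ Cardinal.aleph0).ord

theorem cnt_Iio {j : Ordinal.{0}} : (Set.Iio j).Countable ↔ j < w1 := by
  rw [← Cardinal.le_aleph0_iff_set_countable, Cardinal.mk_Iio_ordinal, Cardinal.lift_le_aleph0, w1,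
    Cardinal.lt_ord, Order.lt_succ_iff]

theorem long_w1 : Long (Set.Iio w1) where
  unc h := lt_irrefl _ (cnt_Iio.1 (Set.countable_coe_iff.1 (Set.countable_univ_iff.1 h)))
  cnt i := by
    have h := (cnt_Iio.2 i.2).insert i.1
    rw [Set.Iio_insert] at h
    exact h.preimage_of_injOn (f := Subtype.val) Subtype.val_injective.injOn

section
variable {C : Type 1} [Category.{1} C] [NameTheory C] [CkOrd C]

theorem forces_maxF {n : ℕ} (a : Fin n) {X : C} (xs : Fin n → N X)
    (h : feq (xs a) (ck Ordinal.omega0 X)) : Forces (atomicOf C) (maxF a) X xs := by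
  rw [maxF, forces_all]
  simp only [forces_all, forces_imp, forces_ex, forces_and, forces_neg, forces_mem, Fin.snoc_last,
    Fin.snoc_castSucc, mv_mv, mem_ck_mv h]
  intro Y f m Z g hm W k x V l hx U u
  obtain ⟨U1, u1, o, h1, h2⟩ :=
    of_mem_ck (fmem_congr (feq_refl _) (ck_mv _ _) (fmem_mv (k ≫ l ≫ u) hm))
  have h3 := fmem_mv (u ≫ u1) hx
  simp only [mv_mv, Category.assoc] at h2 h3 ⊢
  obtain ⟨-, -, o', h4, -⟩ := of_mem_ck (fmem_congr (feq_refl _) h2 h3)
  obtain ⟨i, rfl⟩ := Ordinal.lt_omega0.1 h1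
  obtain ⟨i, rfl⟩ : ∃ i', i = i' + 1 := Nat.exists_eq_succ_of_ne_zero (by
    rintro rfl
    simp at h4)
  refine ⟨U1, u1, ck (i : Ordinal.{1}) U1,
    fmem_congr (feq_refl _) (feq_symm h2) (ck_lt (by exact_mod_cast i.lt_succ_self) _), ?_⟩
  intro T t z T1 t1 hz T2 t2 h5
  have h6 := feq_trans (feq_mv (t ≫ t1 ≫ t2) h2) (ck_mv _ _)
  have h7 := fmem_mv t2 hz
  simp only [mv_mv, Category.assoc] at h6 h7
  obtain ⟨T3, t3, o'', h8, h9⟩ := of_mem_ck (fmem_congr (feq_refl _) h6 h7)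
  have h10 := lt_of_ck (fmem_congr (feq_trans (feq_mv t3 (ck_mv _ _)) (ck_mv _ _)) h9
    (fmem_mv t3 h5))
  push_cast at h8
  exact (Order.lt_add_one_iff.1 h8).not_gt h10

theorem forces_cntF (H : OpPair C) {n : ℕ} (a b : Fin n) {X : C} (xs : Fin n → N X)
    (ha : feq (xs a) (ck (Ordinal.lift.{1} w1) X)) (hb : feq (xs b) (ck Ordinal.omega0 X)) :
    Forces (atomicOf C) (cntF a b) X xs := by
  rw [cntF, forces_all]
  intro Y f β Z g hβ
  rw [forces_ex]
  intro W k
  simp only [forces_mem, Fin.snoc_last, Fin.snoc_castSucc, mv_mv, mem_ck_mv ha] at hβ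
  obtain ⟨V, l, o, h1, h2⟩ := of_mem_ck (fmem_congr (feq_refl _) (ck_mv _ _) (fmem_mv k hβ))
  obtain ⟨j, hj, rfl⟩ := Ordinal.lt_lift_iff.1 h1
  obtain ⟨c, hc⟩ := Set.countable_iff_exists_injective.1 (cnt_Iio.2 hj)
  obtain ⟨h3, h4⟩ := onto_of_codes (mv l (mv k (mv g β))) (I := Set.Iio j) (fun _ => V)
    (fun _ => 𝟙 V) (fun i => ck (c i : Ordinal.{1}) V) (fun i => ck (Ordinal.lift.{1} i.1) V)
    (fun i => by
      rw [mv_id]
      exact fmem_congr (feq_refl _) (feq_symm h2) (ck_lt (Ordinal.lift_lt.2 i.2) _))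
    (fun {U} v y hy => by
      obtain ⟨U', u, o, h3, h4⟩ := of_mem_ck ((mem_ck_mv h2 v).1 hy)
      obtain ⟨i, hi, rfl⟩ := Ordinal.lt_lift_iff.1 h3
      exact ⟨U', u, ⟨i, hi⟩, v ≫ u, (Category.id_comp _).symm,
        feq_trans h4 (feq_symm (ck_mv _ _))⟩)
    (fun i i' U w w' h => by
      have h3 := ck_ne (feq_trans (feq_symm (ck_mv _ _)) (feq_trans h (ck_mv _ _)))
      obtain rfl := hc (Nat.cast_injective h3)
      exact feq_trans (ck_mv _ _) (feq_symm (ck_mv _ _)))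
  refine ⟨V, l, mkN V (I := Set.Iio j) (fun _ => V) (fun _ => 𝟙 V)
    (fun i => ck (c i : Ordinal.{1}) V), forces_ex_of (mkN V (I := Set.Iio j) (fun _ => V)
      (fun _ => 𝟙 V) fun i => op (ck (c i : Ordinal.{1}) V) (ck (Ordinal.lift.{1} i.1) V)) ?_⟩
  rw [forces_and, forces_subF, forces_surjectionF H]
  simp only [Fin.snoc_last, Fin.snoc_castSucc]
  refine ⟨?_, h3, h4⟩
  simp only [mv_mv, mem_ck_mv hb]
  intro U u y hy
  refine fmem_loc fun {T} t => ?_
  have h5 := fmem_mv t hy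
  rw [mv_mv] at h5
  obtain ⟨T', t', i, w, -, h6⟩ := mkN_elim h5
  rw [mv_mv] at h6
  exact ⟨T', t', fmem_congr (feq_symm (feq_trans h6 (ck_mv _ _))) (feq_symm (ck_mv _ _))
    (ck_lt (Ordinal.natCast_lt_omega0 _) _)⟩

end

variable {D : Type 1} [Category.{1} D] [Tw D] [NameTheory (CObj D)] [CkOrd (CObj D)]

omit [CkOrd (CObj D)] in
theorem val_of {X W : CObj D} {h β : N X} {X0 : CObj D} {v0 : X0 ⟶ X}
    (hf : FFun h β (mv v0 (SN X0))) {v : X ⟶ W} {x z : N W} (hm : fmem (op x z) (mv v h)) :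
    ∃ (V : CObj D) (k : W ⟶ V) (e : Z1 ⟶ V), feq (mv k z) (mv e c1) := by
  obtain ⟨V, k, x', z', -, h1, h2⟩ := hf.sub v _ hm
  rw [mv_mv] at h1
  obtain ⟨V', k', e, h3⟩ := SN_elim h1
  refine ⟨V', k ≫ k', e, ?_⟩
  rw [← mv_mv]
  exact feq_trans (feq_mv k' (op_feq.1 (feq_trans (feq_symm (op_mv _ _ _)) h2)).2) h3

theorem forces_ubF (H : OpPair (CObj D)) {X : CObj D} {n : ℕ} (a S L : Fin n) (xs : Fin n → N X)
    (ha : feq (xs a) (ck (Ordinal.lift.{1} w1) X)) (hS : xs S = SN X) (hL : xs L = RN X) :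
    Forces (atomicOf (CObj D)) (ubF a S L) X xs := by
  rw [ubF, forces_all]
  simp only [forces_all, forces_imp, forces_ex, forces_and, forces_mem, forces_functionF H,
    forces_pairMemF H, Fin.snoc_last, Fin.snoc_castSucc, mv_mv, mem_ck_mv ha, hS, hL,
    Category.assoc]
  intro Y f β Z g h W k hf V l
  obtain ⟨U, u, t, ht⟩ := exists_ub (mv (k ≫ l) h)
    (fun v x y y' h1 h2 => hf.func (l ≫ v) x y y'
      (by simpa only [mv_mv, Category.assoc] using h1)
      (by simpa only [mv_mv, Category.assoc] using h2))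
    (fun j : Set.Iio w1 => Ordinal.lift.{1} j.1)
  refine ⟨U, u, mv t c1, SN_mem _ _, ?_⟩
  intro T1 t1 x T2 t2 z T3 t3 hx T4 t4 hz
  refine fmem_loc fun {T5} t5 => ?_
  obtain ⟨T6, t6, o, h1, h2⟩ :=
    of_mem_ck (fmem_congr (feq_refl _) (ck_mv _ _) (fmem_mv (t4 ≫ t5) hx))
  obtain ⟨j, hj, rfl⟩ := Ordinal.lt_lift_iff.1 h1
  have h3 := fmem_op_mv (t5 ≫ t6) hz
  obtain ⟨T7, t7, e, h4⟩ := val_of hf (v := l ≫ u ≫ t1 ≫ t2 ≫ t3 ≫ t4 ≫ t5 ≫ t6)
    (by simpa only [mv_mv, Category.assoc] using h3)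
  have h5 := fmem_op_mv t7 h3
  have h6 := feq_trans (feq_mv t7 h2) (ck_mv _ _)
  simp only [mv_mv, Category.assoc] at h4 h5 h6
  have h7 := ht ⟨j, hj⟩ T7 (t1 ≫ t2 ≫ t3 ≫ t4 ≫ t5 ≫ t6 ≫ t7) e (by
    simpa only [mv_mv, Category.assoc] using fmem_congr (op_feq.2 ⟨h6, h4⟩) (feq_refl _) h5)
  refine ⟨T7, t6 ≫ t7, fmem_congr (feq_symm (feq_trans (op_mv _ _ _) (op_feq.2 ⟨?_, ?_⟩))) ?_
    (RN_mem (f ≫ g ≫ k ≫ l ≫ u ≫ t1 ≫ t2 ≫ t3 ≫ t4 ≫ t5 ≫ t6 ≫ t7) h7)⟩
  · simpa only [mv_mv, Category.assoc] using h4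
  · simp only [mv_mv, Category.assoc]
    exact feq_refl _
  · simp only [mv_mv, Category.assoc]
    exact feq_refl _

theorem forces_incF (hD : NC D) (H : OpPair (CObj D)) {X : CObj D} {n : ℕ} (a S L : Fin n)
    (xs : Fin n → N X) (ha : feq (xs a) (ck (Ordinal.lift.{1} w1) X)) (hS : xs S = SN X)
    (hL : xs L = RN X) : Forces (atomicOf (CObj D)) (incF a S L) X xs := by
  rw [incF, forces_all]
  simp only [upF, forces_all, forces_imp, forces_neg, forces_mem, forces_functionF H, forces_subF,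
    forces_pairMemF H, Fin.snoc_last, Fin.snoc_castSucc, mv_mv, mem_ck_mv ha, hS, hL,
    Category.assoc]
  intro Y f β Z g h W k hf V l hs U u hi
  refine not_inc hD (mv (k ≫ l ≫ u) h)
    (fun v x y y' h1 h2 => hf.func (l ≫ u ≫ v) x y y'
      (by simpa only [mv_mv, Category.assoc] using h1)
      (by simpa only [mv_mv, Category.assoc] using h2)) long_w1
    (fun j : Set.Iio w1 => Ordinal.lift.{1} j.1) (fun j T t => ?_) fun j j' hj T t e e' h1 h2 => ?_
  · have h1 := hs T (u ≫ t) _ (ck_lt (Ordinal.lift_lt.2 j.2) T)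
    obtain ⟨T1, t1, y, h2⟩ := hf.total (l ≫ u ≫ t) _
      (by simpa only [mv_mv, Category.assoc] using h1)
    obtain ⟨T2, t2, e, h3⟩ := val_of hf h2
    refine ⟨T2, t1 ≫ t2, e, ?_⟩
    have h4 := fmem_congr (op_feq.2 ⟨feq_trans (feq_mv t2 (ck_mv _ _)) (ck_mv _ _), h3⟩)
      (feq_refl _) (fmem_op_mv t2 h2)
    simpa only [mv_mv, Category.assoc] using h4
  · have h3 := hi T t (ck (Ordinal.lift.{1} j.1) T) T (𝟙 T) (ck (Ordinal.lift.{1} j'.1) T) T (𝟙 T)
      (mv e c1) T (𝟙 T) (mv e' c1) T (𝟙 T)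
    simp only [mv_id, Category.comp_id] at h3
    have h4 := h3 (ck_lt (Ordinal.lift_lt.2 j.2) T) T (𝟙 T)
    simp only [mv_id, Category.comp_id] at h4
    have h5 := h4 (ck_lt (Ordinal.lift_lt.2 hj) T) T (𝟙 T)
    simp only [mv_id, Category.comp_id] at h5
    have h6 := h5 (by simpa only [mv_mv, Category.assoc] using h1) T (𝟙 T)
    simp only [mv_id, Category.comp_id] at h6
    exact RN_elim (h6 (by simpa only [mv_mv, Category.assoc] using h2))

theorem valid_ndcF (hD : NC D) (H : OpPair (CObj D)) : Valid (atomicOf (CObj D)) ndcF := by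
  intro X xs
  refine forces_ex_of (ck Ordinal.omega0 X) (forces_ex_of (ck (Ordinal.lift.{1} w1) X)
    (forces_ex_of (SN X) (forces_ex_of (RN X) ?_)))
  rw [forces_and, forces_and, forces_and, forces_and, forces_and]
  refine ⟨forces_ordF _ _ (o := Ordinal.omega0) ?_, forces_maxF _ _ ?_,
    forces_ordF _ _ (o := Ordinal.lift.{1} w1) ?_, forces_cntF H _ _ _ ?_ ?_,
    forces_ubF H _ _ _ _ ?_ ?_ ?_, forces_incF hD H _ _ _ _ ?_ ?_ ?_⟩ <;>
  simp only [Fin.snoc_last, Fin.snoc_castSucc] <;> exact feq_refl _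

end Vale.Agent.N323D
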