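import Vale.Agent.N323D.Lim
import Vale.Agent.N323C.Main

/-!
# A relation with upper bounds for all well-ordered families and without long increasing chains
-/

namespace Vale.Agent.N323D

open CategoryTheory Vale.Agent.P323.Z NameTheory TwBase Vale.Agent.P323.H894 Vale.Agent.P323.H341
open Vale.Agent.N323C hiding op

noncomputable section

variable {D : Type 1} [Category.{1} D] [Tw D]

theorem thru_post {x y b c : D} (f : x ⟶ b) (g : y ⟶ b) (u : b ⟶ c) :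
    Thru (f ≫ u) (g ≫ u) ↔ Thru f g := by
  refine ⟨?_, Thru.comp_right u⟩
  rintro ⟨k, hk⟩
  have := TwBase.mono u
  exact ⟨k, (cancel_mono u).1 (by rw [Category.assoc, hk])⟩

/-- strict factorisation of maps out of `Z1` -/
def LtZ {W : CObj D} (e e' : Z1 ⟶ W) : Prop := Thru e.u e'.u ∧ ¬ Thru e'.u e.u

theorem ltZ_post {W V : CObj D} (e e' : Z1 ⟶ W) (k : W ⟶ V) :
    LtZ (e ≫ k) (e' ≫ k) ↔ LtZ e e' := by
  simp only [LtZ, comp_u, thru_post]

theorem exists_nonsplit : ∃ g : (a 1 : D) ⟶ a 1, ¬ Thru (𝟙 _) g := by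
  have h0 : Mem 0 (ι 0 : (a 0 : D) ⟶ a 1) := ι_mem 0
  refine ⟨genX 0 0 h0, ?_⟩
  rintro ⟨r, hr⟩
  have h1 : Mem 0 (r ≫ genX 0 0 h0) := by
    rw [hr]
    exact mem_one 0 0
  obtain ⟨s, hs⟩ : Thru r (ι 0) := Tw.G6 (tkX 0 (ι 0) h0 (mem_one 0 0)) r h1
  have := TwBase.mono (genX 0 0 h0)
  refine ι_not (D := D) 0 ⟨genX 0 0 h0 ≫ s, ?_⟩
  rw [Category.assoc, hs, ← cancel_mono (genX 0 0 h0), Category.assoc, hr, Category.comp_id,
    Category.id_comp]

/-- an extension with a strict upper bound for all maps out of `Z1` -/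
theorem exists_top (Y : CObj D) : ∃ (Y' : CObj D) (k : Y ⟶ Y') (t : Z1 ⟶ Y'),
    ∀ e : Z1 ⟶ Y, LtZ (e ≫ k) t := by
  obtain ⟨α⟩ := to_a1 Y.x
  obtain ⟨g, hg⟩ := exists_nonsplit (D := D)
  refine ⟨rc (a 1) (Col.push (α ≫ g) Y.p) (sm_push _ Y.sm), mkHom (α ≫ g) ?_, zz _ _,
    fun e => ⟨⟨e.u ≫ α ≫ g, Category.comp_id _⟩, ?_⟩⟩
  · change Col.Le Y.p (Col.pull (α ≫ g) (Col.push (α ≫ g) Y.p))
    rw [pull_push]
    exact Col.Le.refl _
  · rintro ⟨r, hr⟩
    have hr' : r ≫ e.u ≫ α ≫ g = 𝟙 (a 1 : D) := hr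
    exact hg ⟨r ≫ e.u ≫ α, by simpa only [Category.assoc] using hr'⟩

variable [NameTheory (CObj D)]

/-- the family of all copies of `c1` -/
def SN (X : CObj D) : N X :=
  mkN X (I := AIdx X) (fun m => m.W) (fun m => m.v) (fun m => mv m.e c1)

/-- indices of the relation -/
structure LIdx (X : CObj D) : Type 1 where
  W : CObj D
  v : X ⟶ W
  e : Z1 ⟶ W
  e' : Z1 ⟶ W
  h : LtZ e e'

/-- the relation of strict factorisation -/
def RN (X : CObj D) : N X :=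
  mkN X (I := LIdx X) (fun m => m.W) (fun m => m.v) (fun m => op (mv m.e c1) (mv m.e' c1))

theorem SN_mem {X W : CObj D} (v : X ⟶ W) (e : Z1 ⟶ W) : fmem (mv e c1) (mv v (SN X)) := by
  have := mkN_mem (I := AIdx X) (fun m => m.W) (fun m => m.v) (fun m => mv m.e c1) ⟨W, v, e⟩ (𝟙 W)
  rwa [mv_id, Category.comp_id] at this

theorem SN_elim {X W : CObj D} {v : X ⟶ W} {y : N W} (h : fmem y (mv v (SN X))) :
    ∃ (W' : CObj D) (k : W ⟶ W') (e : Z1 ⟶ W'), feq (mv k y) (mv e c1) := by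
  obtain ⟨W', k, m, w, -, h1⟩ := mkN_elim h
  rw [mv_mv] at h1
  exact ⟨W', k, _, h1⟩

theorem RN_mem {X W : CObj D} (v : X ⟶ W) {e e' : Z1 ⟶ W} (h : LtZ e e') :
    fmem (op (mv e c1) (mv e' c1)) (mv v (RN X)) := by
  have := mkN_mem (I := LIdx X) (fun m => m.W) (fun m => m.v)
    (fun m => op (mv m.e c1) (mv m.e' c1)) ⟨W, v, e, e', h⟩ (𝟙 W)
  rwa [mv_id, Category.comp_id] at this

theorem RN_elim {X W : CObj D} {v : X ⟶ W} {e e' : Z1 ⟶ W}
    (h : fmem (op (mv e c1) (mv e' c1)) (mv v (RN X))) : LtZ e e' := by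
  obtain ⟨W', k, m, w, -, h1⟩ := mkN_elim h
  obtain ⟨h2, h3⟩ := op_feq.1
    (feq_trans (feq_symm (op_mv k _ _)) (feq_trans h1 (op_mv w _ _)))
  rw [mv_mv, mv_mv] at h2 h3
  rw [← ltZ_post _ _ k, chom_ext (c1_inj _ _ h2), chom_ext (c1_inj _ _ h3), ltZ_post]
  exact m.h

theorem fmem_cons {W V : CObj D} {w : W ⟶ V} (hw : Cons w) {σ τ : N W}
    (h : fmem (mv w σ) (mv w τ)) : fmem σ τ := by
  have := lemmaC (W := W) (fun {V'} k => fmem (mv k σ) (mv k τ))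
    (fun f k hf => by
      rw [← mv_mv, ← mv_mv]
      exact fmem_mv k hf)
    (fun hl => by
      rw [mv_id, mv_id]
      exact fmem_loc fun k => hl k) w hw h
  rwa [mv_id, mv_id] at this

theorem val_mv {X W V : CObj D} {h : N X} {v : X ⟶ W} {o : Ordinal.{1}} {e : Z1 ⟶ W}
    (hm : fmem (op (ck o W) (mv e c1)) (mv v h)) (k : W ⟶ V) :
    fmem (op (ck o V) (mv (e ≫ k) c1)) (mv (v ≫ k) h) := by
  have := P323.F.fmem_op_mv k hm
  rw [mv_mv, mv_mv] at this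
  exact fmem_congr (op_feq.2 ⟨ck_mv _ _, feq_refl _⟩) (feq_refl _) this

open Vale.Agent.P323.H845 in
/-- The values of a function at a small family of ordinals are decided simultaneously. -/
theorem exists_dec {X : CObj D} (h : N X)
    (hf : ∀ {W : CObj D} (v : X ⟶ W) (x y y' : N W), fmem (op x y) (mv v h) →
      fmem (op x y') (mv v h) → feq y y')
    {J : Type 1} [Small.{0} J] (o : J → Ordinal.{1}) :
    ∃ (Y : CObj D) (f : X ⟶ Y), ∀ j,
      (∃ e : Z1 ⟶ Y, fmem (op (ck (o j) Y) (mv e c1)) (mv f h)) ∨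
      ∀ (V : CObj D) (g : Y ⟶ V) (e : Z1 ⟶ V),
        ¬ fmem (op (ck (o j) V) (mv e c1)) (mv (f ≫ g) h) := by
  let q : SCol X.x := ⟨X.p, X.sm⟩
  let S : J → Set (SCol X.x) := fun j => {r : SCol X.x | ∀ hr : Col.Le X.p r.1,
    (∃ e : Z1 ⟶ rc X.x r.1 r.2, fmem (op (ck (o j) _) (mv e c1)) (mv (toRc r.2 hr) h)) ∨
      ∀ (V : CObj D) (g : rc X.x r.1 r.2 ⟶ V) (e : Z1 ⟶ V),
        ¬ fmem (op (ck (o j) V) (mv e c1)) (mv (toRc r.2 hr ≫ g) h)}
  suffices h : (∀ j r r', q ≤ r → r ≤ r' → r ∈ S j → r' ∈ S j) ∧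
      ∀ j r, q ≤ r → ∃ r', r ≤ r' ∧ r' ∈ S j by
    obtain ⟨r, hr, h⟩ := exists_meet (smallChains_scol X.x) q S h.1 h.2
    exact ⟨_, toRc r.2 hr, fun j => h j hr⟩
  constructor
  · intro j r r' h0 h1 h2 h3
    have e : toRc r'.2 h3 = toRc r.2 h0 ≫ toRc (X := rc X.x r.1 r.2) r'.2 h1 := by
      apply chom_ext
      exact (Category.id_comp _).symm
    rcases h2 h0 with ⟨e', h4⟩ | h4
    · left
      rw [e]
      exact ⟨_, val_mv h4 _⟩
    · right
      intro V g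
      rw [e, Category.assoc]
      exact h4 V _
  · intro j r h0
    by_cases hn : ∀ (V : CObj D) (g : rc X.x r.1 r.2 ⟶ V) (e : Z1 ⟶ V),
        ¬ fmem (op (ck (o j) V) (mv e c1)) (mv (toRc r.2 h0 ≫ g) h)
    · exact ⟨r, le_rfl, fun _ => Or.inr hn⟩
    · push Not at hn
      obtain ⟨V, g, e, hg⟩ := hn
      have hs : Col.Sm (Col.pull g.u V.p) := P323.H894.sm_pull _ V.sm
      refine ⟨⟨Col.pull g.u V.p, hs⟩, hom_le g, fun h1 => Or.inl ?_⟩
      let w : rc X.x (Col.pull g.u V.p) hs ⟶ V :=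
        mkHom (X := rc X.x (Col.pull g.u V.p) hs) g.u (Col.Le.refl _)
      have e1 : toRc (X := X) hs h1 ≫ w = toRc r.2 h0 ≫ g := by
        apply chom_ext
        rfl
      rw [← e1] at hg
      obtain ⟨A⟩ := exists_cam w w (P323.H894.compat_of_le (Col.Le.refl _))
      have h2 := val_mv hg A.j1
      have h3 := val_mv hg A.j2
      rw [Category.assoc, A.comm] at h2
      rw [Category.assoc] at h3
      obtain ⟨t, ht, -⟩ := A.pb.2 e.u e.u (c1_inj _ _ (hf _ _ _ _ h2 h3))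
      let e' : Z1 ⟶ rc X.x (Col.pull g.u V.p) hs := mkHom (X := Z1) t (emp_le _)
      have e2 : e' ≫ w = e := chom_ext ht
      refine ⟨e', fmem_cons (w := w) rfl ?_⟩
      rw [mv_mv]
      refine fmem_congr (feq_symm (feq_trans (op_mv _ _ _) (op_feq.2 ⟨ck_mv _ _, ?_⟩)))
        (feq_refl _) hg
      rw [mv_mv, e2]
      exact feq_refl _

/-- Values of a function at a small family of ordinals have a strict upper bound. -/
theorem exists_ub {X : CObj D} (h : N X)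
    (hf : ∀ {W : CObj D} (v : X ⟶ W) (x y y' : N W), fmem (op x y) (mv v h) →
      fmem (op x y') (mv v h) → feq y y')
    {J : Type 1} [Small.{0} J] (o : J → Ordinal.{1}) :
    ∃ (Y : CObj D) (f : X ⟶ Y) (t : Z1 ⟶ Y), ∀ j (V : CObj D) (g : Y ⟶ V) (e : Z1 ⟶ V),
      fmem (op (ck (o j) V) (mv e c1)) (mv (f ≫ g) h) → LtZ e (t ≫ g) := by
  obtain ⟨Y, f, h1⟩ := exists_dec h hf o
  obtain ⟨Y', k, t, h2⟩ := exists_top Y
  refine ⟨Y', f ≫ k, t, fun j V g e he => ?_⟩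
  rw [Category.assoc] at he
  rcases h1 j with ⟨e0, h3⟩ | h3
  · rw [chom_ext (c1_inj _ _ (hf _ _ _ _ he (val_mv h3 (k ≫ g)))), ← Category.assoc, ltZ_post]
    exact h2 e0
  · exact absurd he (h3 V _ e)

/-- No function is increasing on a long family of ordinals. -/
theorem not_inc (hD : NC D) {X : CObj D} (h : N X)
    (hf : ∀ {W : CObj D} (v : X ⟶ W) (x y y' : N W), fmem (op x y) (mv v h) →
      fmem (op x y') (mv v h) → feq y y')
    {J : Type 1} [Small.{0} J] [LinearOrder J] (hJ : Long J) (o : J → Ordinal.{1})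
    (ht : ∀ j (W : CObj D) (v : X ⟶ W), ∃ (V : CObj D) (g : W ⟶ V) (e : Z1 ⟶ V),
      fmem (op (ck (o j) V) (mv e c1)) (mv (v ≫ g) h))
    (hi : ∀ j j', j < j' → ∀ (W : CObj D) (v : X ⟶ W) (e e' : Z1 ⟶ W),
      fmem (op (ck (o j) W) (mv e c1)) (mv v h) → fmem (op (ck (o j') W) (mv e' c1)) (mv v h) →
      LtZ e e') : False := by
  obtain ⟨Y, f, h1⟩ := exists_dec h hf o
  have h2 : ∀ j, ∃ e : Z1 ⟶ Y, fmem (op (ck (o j) Y) (mv e c1)) (mv f h) := fun j =>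
    (h1 j).resolve_right fun h3 => by
      obtain ⟨V, g, e, h4⟩ := ht j Y f
      exact h3 V g e h4
  choose e he using h2
  exact hD J hJ Y.x (fun j => ⟨_, (e j).u⟩) fun j j' hj => hi j j' hj Y f _ _ (he j) (he j')

end

end Vale.Agent.N323D
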