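import Vale.Agent.N323D.FSent

/-!
# Dependent choice along an ordinal in a model of ZF
-/

namespace Vale.Agent.N323D

open Vale.Agent.P323.Z Vale.Agent.N323C

/-- dependent choice along `κ` -/
def DCk {M : Type*} (E : M → M → Prop) (κ : M) : Prop := ∀ S R,
  (∀ β s, E β κ → IsFunction E s β S → ∃ y, E y S ∧ PairMem E s y R) →
  ∃ f, IsFunction E f κ S ∧ ∀ β s y, E β κ → IsFunction E s β S → Sub E s f → PairMem E β y f →
    PairMem E s y R

/-- the first uncountable ordinal -/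
def Om1 {M : Type*} (E : M → M → Prop) (κ : M) : Prop := ∃ w, Om E w ∧ Ord E κ ∧
  (¬ ∃ j, IsInjection E j κ w) ∧ ∀ β, E β κ → ∃ j, IsInjection E j β w

variable {M : Type} [ZM M] {α : Type}

instance dfFun (t s r : (α → M) → M) [Tm t] [Tm s] [Tm r] :
    Df fun v => IsFunction E (t v) (s v) (r v) :=
  Df.app3 (IsFunction E)
    ⟨3, Fml.functionF 0 1 2, Sum.inl, fun _ => by rw [Fml.sat_functionF]; rfl⟩ t s r

instance dfInj (t s r : (α → M) → M) [Tm t] [Tm s] [Tm r] :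
    Df fun v => IsInjection E (t v) (s v) (r v) :=
  Df.app3 (IsInjection E)
    ⟨3, Fml.injectionF 0 1 2, Sum.inl, fun _ => by rw [Fml.sat_injectionF]; rfl⟩ t s r

instance dfInd (t : (α → M) → M) [Tm t] : Df fun v => Ind E (t v) :=
  Df.app1 (Ind E) (by unfold Ind; infer_instance) t

theorem exists_om : ∃ w : M, Om E w := by
  obtain ⟨u, hu⟩ : ∃ u : M, Ind E u := ZM.zf.infinity
  obtain ⟨w, hw⟩ := sep (fun x => ∀ v, Ind E v → E x v) u
  obtain ⟨e, h1, h2⟩ := hu.1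
  refine ⟨w, ⟨⟨e, (hw e).2 ⟨h1, fun v hv => ?_⟩, h2⟩, fun n hn => ?_⟩,
    fun v hv z hz => ((hw z).1 hz).2 v hv⟩
  · obtain ⟨e', h3, h4⟩ := hv.1
    rwa [ext (x := e) (y := e') fun z => by simp [h2, h4]]
  · obtain ⟨m, h3, h4⟩ := hu.2 n ((hw n).1 hn).1
    refine ⟨m, (hw m).2 ⟨h3, fun v hv => ?_⟩, h4⟩
    obtain ⟨m', h5, h6⟩ := hv.2 n (((hw n).1 hn).2 v hv)
    rwa [ext (x := m) (y := m') fun z => (h4 z).trans (h6 z).symm]

theorem om_ord {w : M} (hw : Om E w) : Ord E w := by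
  have h := hw.ind (fun n => Ord E n ∧ Sub E n w)
    (fun e he => ⟨⟨fun x hx => (he x hx).elim, fun x _ hx => (he x hx).elim⟩,
      fun x hx => (he x hx).elim⟩)
    fun n m hn hm ih => ⟨ih.1.suc hm, fun z hz => by
      rcases (hm z).1 hz with h | rfl
      · exact ih.2 z h
      · exact hn⟩
  exact ord_of_mem (fun x hx => (h x hx).2) fun x hx => (h x hx).1

theorem exists_om1 (w : M) : ∃ κ : M, Ord E κ ∧
    (¬ ∃ j, IsInjection E j κ w) ∧ ∀ β, E β κ → ∃ j, IsInjection E j β w := by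
  obtain ⟨a, ha, h⟩ := lindenbaum w
  obtain ⟨κ, ⟨h1, h2⟩, h3⟩ := ord_min (fun x => Ord E x ∧ ¬ ∃ j, IsInjection E j x w) ha
    ⟨ha, fun ⟨j, hj⟩ => h ⟨j, IsInjection.dis hj, fun x hx => by
      obtain ⟨y, hy⟩ := IsFunction.tot hj.1 hx
      exact ⟨y, (IsFunction.dom hj.1 hy).2, hy⟩⟩⟩
  exact ⟨κ, h1, h2, fun β hβ => by_contra fun h4 => h3 β hβ ⟨h1.mem hβ, h4⟩⟩

/-- restriction of a function -/
theorem exists_res {f a S b : M} (hf : IsFunction E f a S) (hb : Sub E b a) :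
    ∃ t, IsFunction E t b S ∧ Sub E t f := by
  obtain ⟨t, ht, ht'⟩ := mkFun (fun x y => E (op x y) f) b S
    (fun x hx => by
      obtain ⟨y, hy⟩ := IsFunction.tot hf (hb x hx)
      exact ⟨y, (IsFunction.dom hf hy).2, hy⟩)
    fun x y y' _ _ _ h h' => IsFunction.fn hf h h'
  refine ⟨t, ht, fun p hp => ?_⟩
  obtain ⟨x, y, -, -, h⟩ := ht.pairs p hp
  obtain rfl := isOPair_iff.1 h
  exact ((ht' x y).1 hp).2.2

theorem sub_of_agree {t t' b a S : M} (ht : IsFunction E t b S) (ht' : IsFunction E t' a S)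
    (hb : Sub E b a) (h : ∀ x y y', E (op x y) t → E (op x y') t' → y = y') : Sub E t t' := by
  intro p hp
  obtain ⟨x, y, hx, -, h1⟩ := ht.pairs p hp
  obtain rfl := isOPair_iff.1 h1
  obtain ⟨y', hy'⟩ := IsFunction.tot ht' (hb x hx)
  rwa [h x y y' hp hy']

/-- `s` follows the rule `g` on `β` -/
def Apx (S g β s : M) : Prop := IsFunction E s β S ∧
  ∀ γ t y, IsFunction E t γ S → Sub E t s → E (op γ y) s → E (op t y) g

instance dfApx (S g : M) (t s : (α → M) → M) [Tm t] [Tm s] : Df fun v => Apx S g (t v) (s v) :=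
  Df.app2 (Apx S g) (by unfold Apx; infer_instance) t s

theorem Apx.agree {S g β β' s s' : M} (hg : ∀ t y y', E (op t y) g → E (op t y') g → y = y')
    (hβ : Ord E β) (hβ' : Ord E β') (h : Apx S g β s) (h' : Apx S g β' s') :
    ∀ x y y', E (op x y) s → E (op x y') s' → y = y' := by
  have key := ind (fun x => ∀ y y', E (op x y) s → E (op x y') s' → y = y') hβ.1
    fun x hx ih y y' h1 h2 => by
      obtain ⟨t, h3, h4⟩ := exists_res h.1 (hβ.1 x hx)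
      have h5 : Sub E t s' := sub_of_agree h3 h'.1 (hβ'.1 x (IsFunction.dom h'.1 h2).1)
        fun z u u' h6 h7 => ih z (IsFunction.dom h3 h6).1 u u' (h4 _ h6) h7
      exact hg t _ _ (h.2 x t y h3 h4 h1) (h'.2 x t y' h3 h5 h2)
  exact fun x y y' h1 => key x (IsFunction.dom h.1 h1).1 y y' h1

theorem Apx.uniq {S g β s s' : M} (hg : ∀ t y y', E (op t y) g → E (op t y') g → y = y')
    (hβ : Ord E β) (h : Apx S g β s) (h' : Apx S g β s') : s = s' :=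
  ext fun z => ⟨sub_of_agree h.1 h'.1 (fun _ h => h) (Apx.agree hg hβ hβ h h') z,
    sub_of_agree h'.1 h.1 (fun _ h => h) (Apx.agree hg hβ hβ h' h) z⟩

theorem exists_apx {S g κ : M} (hκ : Ord E κ)
    (hg : ∀ t y y', E (op t y) g → E (op t y') g → y = y')
    (ht : ∀ β s, E β κ → IsFunction E s β S → ∃ y, E y S ∧ E (op s y) g) :
    ∀ β, Ord E β → Sub E β κ → ∃ s, Apx S g β s := by
  refine ordInd (fun β => Sub E β κ → ∃ s, Apx S g β s) fun β hβ ih hb => ?_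
  obtain ⟨s, hs, hs'⟩ := mkFun (fun γ y => ∃ t, Apx S g γ t ∧ E (op t y) g) β S
    (fun γ hγ => by
      obtain ⟨t, h1⟩ := ih γ hγ (hκ.1 γ (hb γ hγ))
      obtain ⟨y, h2, h3⟩ := ht γ t (hb γ hγ) h1.1
      exact ⟨y, h2, t, h1, h3⟩)
    (by
      rintro γ y y' hγ - - ⟨t, h1, h2⟩ ⟨t', h3, h4⟩
      obtain rfl := Apx.uniq hg (hβ.mem hγ) h1 h3
      exact hg _ _ _ h2 h4)
  refine ⟨s, hs, fun γ t y h1 h2 h3 => ?_⟩
  obtain ⟨hγ, -, t', h4, h5⟩ := (hs' _ _).1 h3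
  have h6 : ∀ x z z', E (op x z) t → E (op x z') t' → z = z' := by
    intro x z z' h6 h7
    obtain ⟨hx, -, u, h8, h9⟩ := (hs' _ _).1 (h2 _ h6)
    have h10 : Sub E u t' := sub_of_agree h8.1 h4.1
      ((hβ.mem hγ).1 x (IsFunction.dom h1 h6).1) (Apx.agree hg (hβ.mem hx) (hβ.mem hγ) h8 h4)
    exact hg u _ _ h9 (h4.2 x u z' h8.1 h10 h7)
  rwa [ext (x := t) (y := t') fun z => ⟨sub_of_agree h1 h4.1 (fun _ h => h) h6 z,
    sub_of_agree h4.1 h1 (fun _ h => h) (fun x z z' h h' => (h6 x z' z h' h).symm) z⟩]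

/-- AC implies dependent choice along each ordinal. -/
theorem dck_of_choice (hC : ∀ I : M, Choice E I) {κ : M} (hκ : Ord E κ) : DCk E κ := by
  intro S R hR
  simp only [pairMem_iff] at hR ⊢
  obtain ⟨Q, hQ⟩ := prod κ S
  obtain ⟨P, hP⟩ := pow Q
  obtain ⟨I, hI⟩ := sep (fun s => ∃ β, E β κ ∧ IsFunction E s β S) P
  obtain ⟨U, hU⟩ := pow S
  obtain ⟨F, hF, hF'⟩ := mkFun (fun s t => ∀ y, E y t ↔ E y S ∧ E (op s y) R) I U
    (fun s _ => by
      obtain ⟨t, ht⟩ := sep (fun y => E (op s y) R) S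
      exact ⟨t, (hU t).2 fun p hp => ((ht p).1 hp).1, ht⟩)
    fun _ _ _ _ _ _ h h' => ext fun p => (h p).trans (h' p).symm
  obtain ⟨g, V, hg, hg'⟩ := hC I F U hF fun s t h => by
    obtain ⟨h1, -, h2⟩ := (hF' _ _).1 (pairMem_iff.1 h)
    obtain ⟨-, β, h3, h4⟩ := (hI s).1 h1
    obtain ⟨y, h5⟩ := hR β s h3 h4
    exact ⟨y, (h2 y).2 h5⟩
  simp only [pairMem_iff] at hg'
  have h1 : ∀ s y, E (op s y) g → E y S ∧ E (op s y) R := fun s y h => by
    obtain ⟨t, ht⟩ := IsFunction.tot hF (IsFunction.dom hg h).1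
    exact (((hF' _ _).1 ht).2.2 y).1 (hg' s t y ht h)
  obtain ⟨f, hf, hf'⟩ := exists_apx (S := S) hκ (fun t y y' => IsFunction.fn hg)
    (fun β s h2 h3 => by
      obtain ⟨y, hy⟩ := IsFunction.tot hg ((hI s).2 ⟨(hP s).2 fun p hp => by
        obtain ⟨x, y, h4, h5, h6⟩ := h3.pairs p hp
        exact (hQ p).2 ⟨x, y, hκ.1 β h2 x h4, h5, isOPair_iff.1 h6⟩, β, h2, h3⟩)
      exact ⟨y, (h1 s y hy).1, hy⟩) κ hκ fun _ h => h
  exact ⟨f, hf, fun β s y _ h2 h3 h4 => (h1 s y (hf' β s y h2 h3 h4)).2⟩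

/-- The forced sentence refutes dependent choice along the first uncountable ordinal. -/
theorem not_dck (hPP : PP (E (M := M))) (h : ndcF.Sat (E (M := M)) ![]) :
    ∃ κ : M, Om1 E κ ∧ ¬ DCk E κ := by
  obtain ⟨o, p, S, L, ho, h1, hp, h2, h3, h4⟩ := (sat_ndcF _ _).1 h
  obtain ⟨w, hw⟩ := exists_om (M := M)
  obtain ⟨κ, hκ, h5, h6⟩ := exists_om1 w
  have how : Sub E o w := ho.sub_of_not (om_ord hw) fun h7 => by
    obtain ⟨e, h8, -⟩ := hw.1.1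
    obtain ⟨m, h9, h10⟩ := h1 w h7 e h8
    obtain ⟨m', h11, h12⟩ := hw.1.2 m h9
    exact h10 m' h11 ((h12 m).2 (Or.inr rfl))
  have hpκ : Sub E p κ := hp.sub_of_not hκ fun h7 => by
    obtain ⟨Y, f, h8, h9⟩ := h2 κ h7
    obtain ⟨j, hj⟩ := hPP Y κ ⟨f, h9⟩
    refine h5 ⟨j, ⟨fun q hq => ?_, hj.1.value⟩, hj.2⟩
    obtain ⟨x, y, h10, h11, h12⟩ := hj.1.pairs q hq
    exact ⟨x, y, h10, how y (h8 y h11), h12⟩
  refine ⟨κ, ⟨w, hw, hκ, h5, h6⟩, fun hd => ?_⟩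
  simp only [pairMem_iff] at h3 h4
  obtain ⟨Q, hQ⟩ := prod κ S
  obtain ⟨P, hP⟩ := pow Q
  obtain ⟨R, -, hR⟩ := rel (fun s y => ∀ x z, E x p → E (op x z) s → E (op z y) L) P S
  obtain ⟨f, hf, hf'⟩ := hd S R fun β s h7 h8 => by
    obtain ⟨y, h9, h10⟩ := h3 β s h8
    refine ⟨y, h9, pairMem_iff.2 ((hR s y).2 ⟨(hP s).2 fun q hq => ?_, h9, h10⟩)⟩
    obtain ⟨x, y, h11, h12, h13⟩ := h8.pairs q hq
    exact (hQ q).2 ⟨x, y, hκ.1 β h7 x h11, h12, isOPair_iff.1 h13⟩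
  refine h4 κ f hf hpκ fun x x' z z' h7 h8 h9 h10 => ?_
  have h11 := (IsFunction.dom hf h10).1
  obtain ⟨s, h12, h13⟩ := exists_res hf (hκ.1 x' h11)
  obtain ⟨z'', h14⟩ := IsFunction.tot h12 h8
  obtain rfl := IsFunction.fn hf h9 (h13 _ h14)
  exact ((hR s z').1 (pairMem_iff.1 (hf' x' s z' h11 h12 h13 (pairMem_iff.2 h10)))).2.2 x z h7 h14

end Vale.Agent.N323D
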