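import Vale.Agent.N323D.Tower

/-!
# A tower without long strictly increasing chains of subobjects
-/

namespace Vale.Agent.N323D

open CategoryTheory Vale.Agent.P323.Z

variable {D : Type 1} [Category.{1} D] [TwBase D]

/-- no long strictly increasing chain inside stage `i` -/
def NCi (D : Type 1) [Category.{1} D] [TwBase D] (i : Ordinal.{0}) : Prop :=
  ∀ (I : Type 1) [LinearOrder I], Long I → ∀ (b : D) (x : I → Dn b),
    (∀ k, Mem i (x k).2) → ¬ Inc x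

theorem nci_zero (h : {f : Σ x y : D, (x ⟶ y) | Mem 0 f.2.2}.Countable) : NCi D 0 := by
  intro I _ hI b x hx hi
  refine hI.unc ?_
  have hg : Function.Injective (fun y : Dn b => (⟨y.1, b, y.2⟩ : Σ x y : D, (x ⟶ y))) := by
    rintro ⟨d, f⟩ ⟨d', f'⟩ e
    cases e
    rfl
  have hx' : Function.Injective x := by
    intro k k' e
    rcases lt_trichotomy k k' with h1 | h1 | h1
    · exact absurd (e ▸ Thru.refl _) (hi k k' h1).2
    · exact h1
    · exact absurd (e ▸ Thru.refl _) (hi k' k h1).2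
  exact (h.preimage_of_injOn (hg.comp hx').injOn).mono fun k _ => hx k

theorem nc_src {i : Ordinal.{0}} (C : Chart D i) (h : NCi D i) : NC C.S := by
  intro I _ hI b x hi
  refine h I hI (C.F.obj (C.st.Φ.obj b))
    (fun k => ⟨_, C.F.map (C.st.Φ.map (x k).2)⟩) (fun k => C.G_mem _) fun k k' hk => ?_
  refine ⟨C.thru_map (C.thru_map' (hi k k' hk).1), ?_⟩
  rintro ⟨u, hu⟩
  have hm : Mem i u := TwBase.mem_div (by rw [hu]; exact C.G_mem _) (C.G_mem _)
  obtain ⟨f, rfl⟩ := C.G_full u hm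
  exact (hi k k' hk).2 ⟨f, C.G_faith (by simpa using hu)⟩

theorem nci_succ {i : Ordinal.{0}} (C : Chart D i) (h : NC C.st.T) : NCi D (i + 1) := by
  intro I _ hI b x hx hi
  obtain ⟨k0⟩ := hI.nonempty
  obtain ⟨b', rfl⟩ := C.F_obj b (TwBase.mem_tgt (hx k0))
  have h1 : ∀ k, ∃ y : Dn b', (⟨C.F.obj y.1, C.F.map y.2⟩ : Dn (C.F.obj b')) = x k := by
    intro k
    have h2 := hx k
    generalize x k = z at h2
    obtain ⟨d, f⟩ := z
    obtain ⟨d', rfl⟩ := C.F_obj d (TwBase.mem_src h2)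
    obtain ⟨f', rfl⟩ := C.F_full f h2
    exact ⟨⟨d', f'⟩, rfl⟩
  choose y hy using h1
  obtain rfl : x = fun k => ⟨C.F.obj (y k).1, C.F.map (y k).2⟩ := funext fun k => (hy k).symm
  refine h I hI b' y fun k k' hk => ⟨?_, fun h3 => (hi k k' hk).2 (C.thru_map h3)⟩
  obtain ⟨u, hu⟩ := (hi k k' hk).1
  have hm : Mem (i + 1) u := TwBase.mem_div (by rw [hu]; exact C.F_mem _) (C.F_mem _)
  obtain ⟨f, rfl⟩ := C.F_full u hm
  exact ⟨f, C.F_faith (by simpa using hu)⟩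

theorem mem_cases {x y : D} {f : x ⟶ y} (i : Ordinal.{0}) (h : Mem i f) :
    Mem 0 f ∨ ∃ j, j < i ∧ Mem (j + 1) f ∧ ¬ Mem j f := by
  induction i using WellFoundedLT.induction with
  | _ i ih =>
  rcases Ordinal.zero_or_succ_or_isSuccLimit i with rfl | ⟨j, rfl⟩ | hl
  · exact Or.inl h
  · by_cases hj : Mem j f
    · rcases ih j (Order.lt_succ j) hj with h1 | ⟨k, hk, h1⟩
      · exact Or.inl h1
      · exact Or.inr ⟨k, hk.trans (Order.lt_succ j), h1⟩
    · exact Or.inr ⟨j, Order.lt_succ j, h, hj⟩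
  · obtain ⟨j, hj, h1⟩ := TwBase.mem_lim hl h
    rcases ih j hj h1 with h1 | ⟨k, hk, h1⟩
    · exact Or.inl h1
    · exact Or.inr ⟨k, hk.trans hj, h1⟩

/-- the part of a map that lies in stage `j` -/
theorem exists_part (C : ∀ i, Chart D i) {j : Ordinal.{0}} {b : D} (hb : Mem j (𝟙 b))
    (i : Ordinal.{0}) : ∀ x : Dn b, Mem i x.2 → ∃ P : Dn b, Mem j P.2 ∧ Thru P.2 x.2 ∧
      ∀ y : Dn b, Mem j y.2 → Thru y.2 x.2 → Thru y.2 P.2 := by
  induction i using WellFoundedLT.induction with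
  | _ i ih =>
  intro x hx
  by_cases hj : Mem j x.2
  · exact ⟨x, hj, Thru.refl _, fun _ _ h => h⟩
  rcases mem_cases i hx with h1 | ⟨k, hk, h1, h2⟩
  · exact absurd (TwBase.mem_mono bot_le h1) hj
  have hjk : j ≤ k := by
    by_contra hn
    exact hj (TwBase.mem_mono (Order.succ_le_of_lt (not_le.1 hn)) h1)
  obtain ⟨N⟩ := (C k).nd x.2 (TwBase.mem_mono hjk hb) h1 h2
  have h3 : Mem k (N.π ≫ x.2) := by
    rw [N.eq]
    exact TwBase.mem_comp N.hπ' (TwBase.mem_comp (TwBase.mem_mono bot_le (TwBase.ι_mem _)) N.hA)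
  obtain ⟨P, hP, hP1, hP2⟩ := ih k hk ⟨_, N.π ≫ x.2⟩ h3
  refine ⟨P, hP, hP1.trans (thru_comp_self _ _), fun y hy hyx => hP2 y hy ?_⟩
  obtain ⟨u, hu⟩ := hyx
  have h4 := (N.N0 u (by rw [hu]; exact TwBase.mem_mono hjk hy)).comp_right x.2
  rwa [hu] at h4

theorem not_inc_of_stages (C : ∀ i, Chart D i) {I : Type 1} [LinearOrder I] (hI : Long I) {b : D}
    (x : I → Dn b) (hx : ∀ k, ∃ j, NCi D j ∧ Mem j (x k).2) : ¬ Inc x := by
  intro hi
  have hp : ∀ (j : Ordinal.{0}), Mem j (𝟙 b) → ∀ k, ∃ P : Dn b, Mem j P.2 ∧ Thru P.2 (x k).2 ∧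
      ∀ y : Dn b, Mem j y.2 → Thru y.2 (x k).2 → Thru y.2 P.2 := fun j hb k =>
    (TwBase.mem_ex (x k).2).elim fun i h => exists_part C hb i _ h
  choose R hR hRm using hx
  have hd : ∀ k, ∃ k', k < k' ∧ ∀ l (y : Dn b), Mem (R k) y.2 → Thru y.2 (x l).2 →
      Thru y.2 (x k').2 := by
    intro k
    choose P hP hP1 hP2 using hp (R k) (TwBase.mem_tgt (hRm k))
    obtain ⟨i0, h0⟩ := stab hI P
      (fun s hs => hR k s (hI.sub hs) b _ fun l => hP l)
      (fun l l' hl => hP2 l' _ (hP l) ((hP1 l).trans (hi.le hl)))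
    obtain ⟨k', hk'⟩ := hI.gt (max k i0)
    refine ⟨k', (le_max_left _ _).trans_lt hk', fun l y hy hl => ?_⟩
    exact (((hP2 l y hy hl).trans (h0 l)).trans (hP1 i0)).trans
      (hi.le ((le_max_right _ _).trans hk'.le))
  choose nx hnx hnx' using hd
  obtain ⟨k0⟩ := hI.nonempty
  let s : ℕ → I := fun n => nx^[n] k0
  have hs : ∀ n, s (n + 1) = nx (s n) := fun n => Function.iterate_succ_apply' _ _ _
  obtain ⟨m, hm⟩ := hI.ub (Set.countable_range s)
  have hle : ∀ n, R (s n) ≤ ⨆ n, R (s n) := fun n => Ordinal.le_iSup (fun n => R (s n)) n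
  obtain ⟨z, hz, hz1, hz2⟩ := hp (⨆ n, R (s n))
    (TwBase.mem_mono (hle 0) (TwBase.mem_tgt (hRm _))) m
  have h1 : ∃ n, Mem (R (s n)) z.2 := by
    rcases mem_cases _ hz with h1 | ⟨j, hj, h1, -⟩
    · exact ⟨0, TwBase.mem_mono bot_le h1⟩
    · obtain ⟨n, hn⟩ := Ordinal.lt_iSup_iff.1 hj
      exact ⟨n, TwBase.mem_mono (Order.succ_le_of_lt hn) h1⟩
  obtain ⟨n, hn⟩ := h1
  have h2 := hnx' (s n) m z hn hz1
  have h3 := hz2 (x (s (n + 2))) (TwBase.mem_mono (hle _) (hRm _)) (hi.le (hm _ ⟨_, rfl⟩).le)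
  refine (hi (nx (s n)) (s (n + 2)) ?_).2 (h3.trans h2)
  rw [hs, hs]
  exact hnx _

theorem nc_of_charts (h0 : {f : Σ x y : D, (x ⟶ y) | Mem 0 f.2.2}.Countable)
    (h : ∀ i : Ordinal.{0}, ∃ C : Chart D i, NC C.S → NC C.st.T) : NC D := by
  choose C hC using h
  have key : ∀ i, NCi D i := by
    intro i
    induction i using WellFoundedLT.induction with
    | _ i ih =>
    intro I _ hI b x hx
    refine not_inc_of_stages C hI x fun k => ?_
    rcases mem_cases i (hx k) with h1 | ⟨j, hj, h1, -⟩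
    · exact ⟨0, nci_zero h0, h1⟩
    · exact ⟨j + 1, nci_succ (C j) (hC j (nc_src (C j) (ih j hj))), h1⟩
  intro I _ hI b x
  exact not_inc_of_stages C hI x fun k => (TwBase.mem_ex (x k).2).imp fun j hj => ⟨key j, hj⟩

theorem exists_tw : ∃ (D : Type 1) (_ : Category.{1} D) (_ : Tw D), NC D := by
  obtain ⟨D, _, _, h0, h⟩ := exists_charts'
  obtain ⟨T⟩ := tw_of_charts fun i => (h i).elim fun C _ => ⟨C⟩
  exact ⟨D, _, T, nc_of_charts h0 h⟩

end Vale.Agent.N323D
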