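import Vale.Agent.N323D.Int
import Vale.Agent.N323D.Defs

/-!
# A countable transitive model of ZF and PP in which `DC_{ω₁}` fails
-/

namespace Vale.Agent.N323D

open CategoryTheory FirstOrder FirstOrder.Language Vale.Agent.P323.Z Vale.Agent.P323.F
open Vale.Agent.N323C Vale.Agent.N323C.S Function

section
variable {M : Type*} [LSet.Structure M] {k : ℕ} {v : ℕ → M} {x : ℕ}

theorem ev_dck (hx : x < k) : Ev (dck x) k v ↔ DCk (el M) (v x) := by
  simp (disch := omega) only [dck, ev_all, ev_ex, ev_and, ev_imp, ev_func, ev_ap, ev_mem, ev_sub,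
    update_self, update_of_ne]
  rfl

theorem ev_omega1 (hx : x < k) : Ev (omega1 x) k v ↔ Om1 (el M) (v x) := by
  simp (disch := omega) only [omega1, ev_all, ev_ex, ev_and, ev_imp, ev_not, ev_inj, ev_mem,
    ev_omega, ev_ord, update_self, update_of_ne]
  rfl

theorem realize_dc1 [Nonempty M] : M ⊨ dc1 0 ↔ ∀ κ, Om1 (el M) κ → DCk (el M) κ := by
  obtain ⟨v⟩ : Nonempty (ℕ → M) := inferInstance
  simp (disch := omega) only [ev_zero v, dc1, ev_all, ev_imp, ev_omega1, ev_dck, update_self]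

end

theorem exists_wf : ∃ (M : Type) (E : M → M → Prop), Countable M ∧ WellFounded E ∧ IsZFModel E ∧
    PP E ∧ ndcF.Sat E ![] := by
  obtain ⟨D, _, tw, hD⟩ := exists_tw
  have X0 : CObj D := P323.H341.Z1
  obtain ⟨M, E, -, -, hM, wf, hV, -⟩ :=
    N323.exists_wf_model (N323.smallDec D) X0 ∅ Set.countable_empty
  have hZ : ZFNames (atomicOf (CObj D)) := zfNames _
  have := ckOrd (CObj D)
  exact ⟨M, E, hM, wf, isZFModel_of_valid hZ hV,
    (Fml.sat_ppF _ ![]).1 (hV 0 Fml.ppF (valid_ppF (opPair _) (ppForced D)) ![]),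
    hV 0 _ (valid_ndcF hD (opPair _)) _⟩

theorem models_of {M : Type} (R : M → M → Prop) (hZ : IsZFModel R) (hPP : PP R)
    (hS : ndcF.Sat R ![]) :
    letI := memStructure R
    M ⊨ ZF ∪ {pp 0, dc1.not 0} := by
  let _ := memStructure R
  let _ : ZM M := ⟨R, hZ⟩
  have : Nonempty M := ne_M
  refine Theory.Model.union (models_iff.2 hZ) ((Theory.model_iff _).2 ?_)
  rintro ψ (rfl | rfl)
  · exact realize_pp.2 hPP
  · obtain ⟨κ, h1, h2⟩ := not_dck hPP hS
    exact (Sentence.realize_not M).2 fun h => h2 (realize_dc1.1 h κ h1)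

theorem exists_transitive : ∃ T : ZFSet.{0}, (T : Set ZFSet.{0}).Countable ∧ T.IsTransitive ∧
    Nonempty T ∧
    letI := memStructure fun x y : T => x.1 ∈ y.1
    T ⊨ ZF ∪ {pp 0, dc1.not 0} := by
  obtain ⟨M, R, hM, wf, hZ, hPP, hS⟩ := exists_wf
  obtain ⟨π, hπi, hπ⟩ := N323.exists_collapse R wf hZ.extensionality
  have hE : ∀ x y, π x ∈ π y ↔ R x y := fun x y =>
    ⟨fun h => by
      obtain ⟨z, h1, h2⟩ := (hπ y _).1 h
      rwa [← hπi h2], fun h => (hπ y _).2 ⟨x, h, rfl⟩⟩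
  obtain ⟨w, -⟩ := hZ.infinity
  refine ⟨ZFSet.range π, ?_, fun t ht z hz => ?_, ⟨⟨π w, ZFSet.mem_range_self w⟩⟩, ?_⟩
  · rw [ZFSet.coe_range]
    exact Set.countable_range π
  · obtain ⟨x, rfl⟩ := ZFSet.mem_range.1 ht
    obtain ⟨y, -, rfl⟩ := (hπ x z).1 hz
    exact ZFSet.mem_range_self y
  · let _ := memStructure R
    let _ := memStructure fun x y : (ZFSet.range π : ZFSet.{0}) => x.1 ∈ y.1
    have := models_of R hZ hPP hS
    let e : M ≃ (ZFSet.range π : ZFSet.{0}) :=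
      Equiv.ofBijective (fun x => ⟨π x, ZFSet.mem_range_self x⟩)
        ⟨fun x y h => hπi (congrArg Subtype.val h), by
          rintro ⟨t, ht⟩
          obtain ⟨x, rfl⟩ := ZFSet.mem_range.1 ht
          exact ⟨x, rfl⟩⟩
    let g : M ≃[LSet] (ZFSet.range π : ZFSet.{0}) :=
      { e with
        map_fun' := fun f => (f : Empty).elim
        map_rel' := fun r x => by
          cases r
          exact hE _ _ }
    exact StrongHomClass.theory_model g

theorem ac_dc1 : ZF ⊨ᵇ ac 0 ⟹ dc1 0 := by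
  refine Theory.models_sentence_iff.2 fun M => (Sentence.realize_imp M).2 fun h => ?_
  let _ : ZM M := ⟨el M, models_iff.1 M.is_model⟩
  refine realize_dc1.2 fun κ hκ => ?_
  obtain ⟨w, -, h1, -⟩ := hκ
  exact dck_of_choice (realize_ac.1 h) h1

theorem pp_dc : ZF ⊨ᵇ pp 0 ⟹ dc 0 := by
  refine Theory.models_sentence_iff.2 fun M => (Sentence.realize_imp M).2 fun h => ?_
  let _ : ZM M := ⟨el M, models_iff.1 M.is_model⟩
  exact realize_dc.2 (dc_of_choice fun I hI => choice_of_pp (realize_pp.1 h) hI)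

theorem main : ¬ ZF ⊨ᵇ pp 0 ⟹ ac 0 ∧ ¬ ZF ⊨ᵇ pp 0 ⟹ dc1 0 ∧
    ZF ⊨ᵇ ac 0 ⟹ dc1 0 ∧ ZF ⊨ᵇ pp 0 ⟹ dc 0 ∧
    ∃ T : ZFSet.{0}, (T : Set ZFSet.{0}).Countable ∧ T.IsTransitive ∧
      letI := memStructure fun x y : T => x.1 ∈ y.1
      T ⊨ ZF ∪ {pp 0, dc1.not 0} := by
  obtain ⟨T, h1, h2, h3, h4⟩ := exists_transitive
  let _ := memStructure fun x y : T => x.1 ∈ y.1
  have h5 : T ⊨ ZF := h4.mono Set.subset_union_left
  have h6 : T ⊨ pp 0 := h4.realize_of_mem _ (Or.inr (Or.inl rfl))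
  have h7 : T ⊨ ∼(dc1 0) := h4.realize_of_mem _ (Or.inr (Or.inr rfl))
  refine ⟨fun h => ?_, fun h => ?_, ac_dc1, pp_dc, T, h1, h2, h4⟩
  · exact (Sentence.realize_not T).1 h7 ((Sentence.realize_imp T).1 (ac_dc1.realize_sentence T)
      ((Sentence.realize_imp T).1 (h.realize_sentence T) h6))
  · exact (Sentence.realize_not T).1 h7 ((Sentence.realize_imp T).1 (h.realize_sentence T) h6)

end Vale.Agent.N323D
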