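import Vale.Agent.P323.H14.ExistsStep

/-!
# No strictly increasing chain of length `ω₁` of subobjects: the successor step
-/

namespace Vale.Agent.N323D

open CategoryTheory Vale.Agent.P323.Z

universe v u w w'

set_option linter.checkUnivs false

/-- uncountable linear orders with countable initial segments -/
structure Long (I : Type 1) [LinearOrder I] : Prop where
  unc : ¬ (Set.univ : Set I).Countable
  cnt : ∀ i : I, (Set.Iic i).Countable

namespace Long

variable {I : Type 1} [LinearOrder I] (h : Long I)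
include h

theorem sub {s : Set I} (hs : ¬ s.Countable) : Long s where
  unc hc := hs (by simpa using hc.image Subtype.val)
  cnt i := (h.cnt i.1).preimage_of_injOn (f := Subtype.val) Subtype.val_injective.injOn

theorem ub {t : Set I} (ht : t.Countable) : ∃ i, ∀ j ∈ t, j < i := by
  by_contra hn
  push Not at hn
  refine h.unc ((ht.biUnion fun j _ => h.cnt j).mono fun i _ => ?_)
  obtain ⟨j, hj, hij⟩ := hn i
  exact Set.mem_biUnion hj hij

theorem gt (i : I) : ∃ j, i < j := by
  obtain ⟨j, hj⟩ := h.ub (Set.countable_singleton i)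
  exact ⟨j, hj i rfl⟩

theorem unb {s : Set I} (hs : ¬ s.Countable) (j : I) : ∃ k ∈ s, j ≤ k := by
  by_contra hn
  push Not at hn
  exact hs ((h.cnt j).mono fun k hk => (hn k hk).le)

theorem nonempty : Nonempty I := by
  by_contra hn
  have := not_nonempty_iff.1 hn
  exact h.unc (Set.to_countable _)

theorem dich {Y : Type*} (f : I → Y) :
    (∃ y, ¬ (f ⁻¹' {y}).Countable) ∨ ∃ s : Set I, ¬ s.Countable ∧ Set.InjOn f s := by
  by_cases h1 : ∃ y, ¬ (f ⁻¹' {y}).Countable
  · exact Or.inl h1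
  push Not at h1
  right
  obtain ⟨s, hs, hb⟩ := Set.exists_subset_bijOn (Set.univ : Set I) f
  refine ⟨s, fun hc => h.unc ?_, hb.injOn⟩
  have h2 : (f '' Set.univ).Countable := hb.image_eq ▸ hc.image f
  refine (h2.biUnion fun y _ => h1 y).mono fun i hi => ?_
  exact Set.mem_biUnion (Set.mem_image_of_mem f hi) rfl

theorem fibre {Y : Type*} [Countable Y] (f : I → Y) : ∃ y, ¬ (f ⁻¹' {y}).Countable := by
  rcases h.dich f with h1 | ⟨s, hs, hf⟩
  · exact h1
  · exact absurd (Set.countable_of_injective_of_countable_image hf (Set.to_countable _)) hs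

end Long

section

variable {C : Type u} [Category.{v} C]

/-- maps with target `b` -/
abbrev Dn (b : C) : Type (max u v) := Σ d : C, d ⟶ b

/-- strict factorisation -/
def Lt {b : C} (x y : Dn b) : Prop := Thru x.2 y.2 ∧ ¬ Thru y.2 x.2

/-- strictly increasing families -/
def Inc {I : Type 1} [LinearOrder I] {b : C} (x : I → Dn b) : Prop :=
  ∀ i j, i < j → Lt (x i) (x j)

theorem Inc.sub {I : Type 1} [LinearOrder I] {b : C} {x : I → Dn b} (h : Inc x) (s : Set I) :
    Inc fun i : s => x i := fun i j hij => h i j hij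

theorem Inc.le {I : Type 1} [LinearOrder I] {b : C} {x : I → Dn b} (h : Inc x) {i j : I}
    (hij : i ≤ j) : Thru (x i).2 (x j).2 := by
  rcases hij.eq_or_lt with rfl | hij
  · exact Thru.refl _
  · exact (h i j hij).1

/-- monotone families stabilise -/
theorem stab {I : Type 1} [LinearOrder I] (hI : Long I) {b : C} (x : I → Dn b)
    (hn : ∀ s : Set I, ¬ s.Countable → ¬ Inc fun i : s => x i)
    (hm : ∀ i j, i ≤ j → Thru (x i).2 (x j).2) : ∃ i0, ∀ j, Thru (x j).2 (x i0).2 := by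
  rcases hI.dich (fun i => {j | Thru (x j).2 (x i).2}) with ⟨y, hy⟩ | ⟨s, hs, hf⟩
  · obtain ⟨i0⟩ := hI.nonempty
    obtain ⟨i0, h0, -⟩ := hI.unb hy i0
    refine ⟨i0, fun j => ?_⟩
    obtain ⟨k, hk, hjk⟩ := hI.unb hy j
    have e : {j | Thru (x j).2 (x k).2} = {j | Thru (x j).2 (x i0).2} := hk.trans h0.symm
    exact (Set.ext_iff.1 e j).1 (hm j k hjk)
  · refine absurd (fun i j hij => ⟨hm _ _ hij.le, fun h => hij.ne (Subtype.ext ?_)⟩) (hn s hs)
    exact hf i.2 j.2 (Set.ext fun k => ⟨fun hk => hk.trans (hm _ _ hij.le), fun hk => hk.trans h⟩)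

end

/-- no long strictly increasing chain -/
def NC (C : Type u) [Category.{v} C] : Prop :=
  ∀ (I : Type 1) [LinearOrder I], Long I → ∀ (b : C) (x : I → Dn b), ¬ Inc x

theorem NC.stab {C : Type u} [Category.{v} C] (h : NC C) {I : Type 1} [LinearOrder I]
    (hI : Long I) {b : C} (x : I → Dn b) (hm : ∀ i j, i ≤ j → Thru (x i).2 (x j).2) :
    ∃ i0, ∀ j, Thru (x j).2 (x i0).2 :=
  N323D.stab hI x (fun s hs => h s (hI.sub hs) b _) hm

/-! ### Words -/

section Words

open Vale.Agent.P323.H533 Vale.Agent.P323.H533.Letters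

variable {D : Type u} [Category.{v} D] {L : Letters.{v, u, w, w'} D}

/-- the number of letters -/
def len {d : D} : {x : D} → L.W d x → ℕ
  | _, .old _ => 0
  | _, .new _ _ m => len m + 1

theorem nc_words_aux (hG : L.Good) (h : NC D) (n : ℕ) :
    ∀ (I : Type 1) [LinearOrder I], Long I → ∀ (b : D) (x : I → Dn (ob hG b)),
      (∀ i, len (wd hG (x i).2) = n) → ¬ Inc x := by
  induction n with
  | zero =>
    intro I _ hI b x hx hi
    have h1 : ∀ i, ∃ g : (x i).1.un ⟶ b, (x i).2 = inc hG g := by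
      intro i
      rcases cases_hom hG (x i).2 with h1 | ⟨t, om, m, hm, e⟩
      · exact h1
      · have h2 := hx i
        rw [e, new_val hG t om hm] at h2
        cases h2
    choose g hg using h1
    refine h I hI b (fun i => ⟨_, g i⟩) fun i j hij => ⟨?_, ?_⟩
    · obtain ⟨k, hk⟩ := (hi i j hij).1
      rw [hg, hg] at hk
      obtain ⟨k', -, hk'⟩ := old_div hG k (g j) (g i) hk
      exact ⟨k', hk'⟩
    · rintro ⟨k, hk⟩
      refine (hi i j hij).2 ⟨inc hG k, ?_⟩
      rw [hg, hg]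
      exact congrArg (inc hG) hk
  | succ n ih =>
    intro I _ hI b x hx hi
    have h1 : ∀ i, ∃ (p : Σ t, L.H t b) (m : (x i).1 ⟶ ob hG (L.c p.1)),
        ¬ Thru m (inc hG (L.al p.1)) ∧ (x i).2 = m ≫ G hG p.1 p.2 := by
      intro i
      rcases cases_hom hG (x i).2 with ⟨g, e⟩ | ⟨t, om, m, hm, e⟩
      · have h2 := hx i
        rw [e] at h2
        cases h2
      · exact ⟨⟨t, om⟩, m, hm, e⟩
    choose p m hm e using h1
    rcases hI.dich p with ⟨y, hy⟩ | ⟨s, hs, hf⟩
    · have h2 : ∀ i : p ⁻¹' {y}, ∃ m : (x i).1 ⟶ ob hG (L.c y.1),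
          ¬ Thru m (inc hG (L.al y.1)) ∧ (x i).2 = m ≫ G hG y.1 y.2 := by
        rintro ⟨i, rfl⟩
        exact ⟨m i, hm i, e i⟩
      choose m' hm' e' using h2
      refine ih _ (hI.sub hy) (L.c y.1) (fun i => ⟨_, m' i⟩) (fun i => ?_) fun i j hij => ⟨?_, ?_⟩
      · have h3 := hx i
        rw [e' i, new_val hG _ _ (hm' i)] at h3
        exact Nat.succ_injective h3
      · obtain ⟨k, hk⟩ := (hi i j hij).1
        rw [e', e', ← Category.assoc] at hk
        exact ⟨k, G_cancel hG _ _ hk⟩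
      · intro h3
        refine (hi i j hij).2 ?_
        rw [e', e']
        exact Thru.comp_right _ h3
    · have key : ∀ i j : s, i < j → Thru (L.gam (p i).1 (p i).2) (L.bet (p j).1 (p j).2) := by
        intro i j hij
        obtain ⟨k, hk⟩ := (hi i j hij).1
        rw [e, e, ← Category.assoc] at hk
        by_cases hc : Thru (k ≫ m j) (inc hG (L.al (p j).1))
        · obtain ⟨k', hk'⟩ := hc
          rw [← hk', al_G'] at hk
          obtain ⟨om', h3, -⟩ := new_fac hG _ _ (hm i) _ k' hk.symm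
          exact ⟨L.gam _ om', by rw [← L.gam_nat, h3]⟩
        · obtain ⟨ht, h3, -⟩ := nf_inj hG hc (hm i) hk
          refine absurd (Subtype.ext (hf i.2 j.2 ?_)) hij.ne
          have gen : ∀ (y y' : Σ t, L.H t b) (ht : y.1 = y'.1), ht ▸ y.2 = y'.2 → y' = y := by
            rintro ⟨t, om⟩ ⟨t', om'⟩ ht h4
            cases ht
            cases h4
            rfl
          exact gen _ _ ht h3
      refine h s (hI.sub hs) b (fun i => ⟨_, L.gam (p i).1 (p i).2⟩) fun i j hij => ⟨?_, ?_⟩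
      · exact (key i j hij).trans (thru_comp_self _ _)
      · intro h3
        obtain ⟨k, hk⟩ := h3.trans (key i j hij)
        refine hG.io_ns (L.n (p j).1) ⟨k, ?_⟩
        have := hG.mono (L.gam (p j).1 (p j).2)
        rw [← cancel_mono (L.gam (p j).1 (p j).2), Category.assoc, Category.id_comp]
        exact hk

theorem nc_words (hG : L.Good) (h : NC D) : NC (WC hG) := by
  intro I _ hI b x hi
  obtain ⟨n, hn⟩ := hI.fibre fun i => len (wd hG (x i).2)
  exact nc_words_aux hG h n _ (hI.sub hn) b.un (fun i => x i) (fun i => i.2) (hi.sub _)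

end Words

/-! ### Spans -/

section Star

open Vale.Agent.P323.H14

variable {W : Type u} [Category.{u} W]

theorem nc_star [AM W] (h : NC W) : NC (StOb W) := by
  intro I _ hI B x hi
  cases B with
  | old b =>
    have h1 : ∀ i, ∃ (d : W) (g : d ⟶ b), x i = ⟨StOb.old d, o g⟩ := by
      intro i
      obtain ⟨d, f⟩ := x i
      cases d with
      | old d =>
        obtain ⟨g, rfl⟩ := old_old f
        exact ⟨d, g, rfl⟩
      | sp l r => exact (no_old f).elim
    choose d g e using h1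
    refine h I hI b (fun i => ⟨_, g i⟩) fun i j hij => ?_
    have h2 := hi i j hij
    rw [e, e] at h2
    refine ⟨?_, ?_⟩
    · obtain ⟨k, hk⟩ := h2.1
      obtain ⟨k, rfl⟩ := old_old k
      exact ⟨k, o_inj ((o_o _ _).symm.trans hk)⟩
    · rintro ⟨k, hk⟩
      exact h2.2 ⟨o k, (o_o _ _).trans (congrArg o hk)⟩
  | @sp z0 x0 y0 l r =>
    have h1 : ¬ {i | ∃ (d : W) (g : d ⟶ x0), x i = ⟨StOb.old d, jL l r g⟩}.Countable ∨
        ¬ {i | ∃ (d : W) (g : d ⟶ y0), x i = ⟨StOb.old d, jR l r g⟩}.Countable ∨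
        ¬ {i | ∃ (z' x' y' : W) (l' : z' ⟶ x') (r' : z' ⟶ y') (c : Cart l' r' l r),
          x i = ⟨StOb.sp l' r', sq c⟩}.Countable := by
      by_contra hn
      push Not at hn
      refine hI.unc ((hn.1.union (hn.2.1.union hn.2.2)).mono fun i _ => ?_)
      simp only [Set.mem_union, Set.mem_ofPred_eq]
      obtain ⟨d, f⟩ := x i
      cases d with
      | old d =>
        rcases pt_cases f with ⟨s, rfl⟩ | ⟨s, rfl⟩
        · exact Or.inl ⟨d, s, rfl⟩
        · exact Or.inr (Or.inl ⟨d, s, rfl⟩)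
      | sp l' r' =>
        obtain ⟨c, rfl⟩ := sp_sp f
        exact Or.inr (Or.inr ⟨_, _, _, l', r', c, rfl⟩)
    rcases h1 with hs | hs | hs
    · choose d g e using fun i : {i | ∃ (d : W) (g : d ⟶ x0), x i = ⟨StOb.old d, jL l r g⟩} => i.2
      refine h _ (hI.sub hs) x0 (fun i => ⟨_, g i⟩) fun i j hij => ?_
      have h2 := hi i j hij
      rw [e, e] at h2
      refine ⟨?_, ?_⟩
      · obtain ⟨k, hk⟩ := h2.1
        obtain ⟨k, rfl⟩ := old_old k
        exact ⟨k, jL_inj ((o_jL _ _ _ _).symm.trans hk)⟩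
      · rintro ⟨k, hk⟩
        exact h2.2 ⟨o k, (o_jL _ _ _ _).trans (congrArg (jL l r) hk)⟩
    · choose d g e using fun i : {i | ∃ (d : W) (g : d ⟶ y0), x i = ⟨StOb.old d, jR l r g⟩} => i.2
      refine h _ (hI.sub hs) y0 (fun i => ⟨_, g i⟩) fun i j hij => ?_
      have h2 := hi i j hij
      rw [e, e] at h2
      refine ⟨?_, ?_⟩
      · obtain ⟨k, hk⟩ := h2.1
        obtain ⟨k, rfl⟩ := old_old k
        exact ⟨k, jR_inj ((o_jR _ _ _ _).symm.trans hk)⟩
      · rintro ⟨k, hk⟩
        exact h2.2 ⟨o k, (o_jR _ _ _ _).trans (congrArg (jR l r) hk)⟩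
    · choose z' x' y' l' r' c e using fun i : {i | ∃ (z' x' y' : W) (l' : z' ⟶ x') (r' : z' ⟶ y')
        (c : Cart l' r' l r), x i = ⟨StOb.sp l' r', sq c⟩} => i.2
      have hI' := hI.sub hs
      have h2 : ∀ i j, i ≤ j → ∃ k : Cart (l' i) (r' i) (l' j) (r' j), k.comp (c j) = c i := by
        intro i j hij
        have h3 := hi.le (show i.1 ≤ j.1 from hij)
        rw [e, e] at h3
        obtain ⟨k, hk⟩ := h3
        obtain ⟨k, rfl⟩ := sp_sp k
        exact ⟨k, sq_inj ((sq_sq _ _).symm.trans hk)⟩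
      obtain ⟨i1, h3⟩ := h.stab hI' (fun i => ⟨_, (c i).p⟩) fun i j hij => by
        obtain ⟨k, hk⟩ := h2 i j hij
        exact ⟨k.p, congrArg Cart.p hk⟩
      obtain ⟨i2, h4⟩ := h.stab hI' (fun i => ⟨_, (c i).m⟩) fun i j hij => by
        obtain ⟨k, hk⟩ := h2 i j hij
        exact ⟨k.m, congrArg Cart.m hk⟩
      obtain ⟨i3, h5⟩ := h.stab hI' (fun i => ⟨_, (c i).q⟩) fun i j hij => by
        obtain ⟨k, hk⟩ := h2 i j hij
        exact ⟨k.q, congrArg Cart.q hk⟩
      obtain ⟨j, hj⟩ := hI'.gt (max i1 (max i2 i3))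
      obtain ⟨k1, e1⟩ := h2 i1 (max i1 (max i2 i3)) (le_max_left _ _)
      obtain ⟨k2, e2⟩ := h2 i2 (max i1 (max i2 i3)) ((le_max_left _ _).trans (le_max_right _ _))
      obtain ⟨k3, e3⟩ := h2 i3 (max i1 (max i2 i3)) ((le_max_right _ _).trans (le_max_right _ _))
      obtain ⟨p, hp⟩ := (h3 j).trans ⟨k1.p, congrArg Cart.p e1⟩
      obtain ⟨m, hm⟩ := (h4 j).trans ⟨k2.m, congrArg Cart.m e2⟩
      obtain ⟨q, hq⟩ := (h5 j).trans ⟨k3.q, congrArg Cart.q e3⟩
      have h6 := (hi _ _ hj).2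
      rw [e, e] at h6
      refine h6 ⟨sq ⟨p, m, q, mediate (c _).hl (c j).hl hp hm, mediate (c _).hr (c j).hr hq hm⟩, ?_⟩
      exact (sq_sq _ _).trans (congrArg sq (Cart.ext hp hm hq))

end Star

end Vale.Agent.N323D
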