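import Vale.Agent.N323D.NC
import Vale.Agent.P323.H709.Chain
import Vale.Agent.P323.H436.TransferThm

/-!
# The tower again, with steps that keep the property `NC`
-/

namespace Vale.Agent.N323D

open CategoryTheory Vale.Agent.P323.Z

universe u

set_option linter.checkUnivs false

section

open Vale.Agent.P323.H533 Vale.Agent.P323.H533.Letters Vale.Agent.P323.H172 Vale.Agent.P323.H142

variable {S : Type u} [Category.{u} S] {a : ℕ → S} {ι : ∀ n, a n ⟶ a (n + 1)}
  (hS : IsStage S a ι)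

include hS in
/-- The words half of the step. -/
theorem exists_wstep' : ∃ w : WStep S a ι, NC S → NC w.W := by
  let hG := letters_good hS
  refine ⟨⟨WC hG, incF hS, ?_, ?_, ?_, ?_, ?_, ?_, ?_, fun τ => wgen hS τ, ?_, ?_, ?_, ?_, ?_,
    ?_, ?_⟩, nc_words hG⟩
  · -- inj
    intro x y h
    exact congrArg WC.un h
  · -- surj
    intro x
    exact ⟨x.un, rfl⟩
  · -- faithful
    intro x y f g h
    exact inc_inj hG h
  · -- pb
    intro z x y b p q f g h
    exact inc_pb hG h
  · -- div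
    intro x y z u g h e
    obtain ⟨z', h1, -⟩ := old_div hG u g h e
    exact ⟨z', h1.symm⟩
  · -- stage
    refine ⟨?_, ?_, ?_, ?_⟩
    · intro x y f
      exact mono_WC hG f
    · intro x y b f g
      obtain ⟨P, p, q, h⟩ := pb_all hG (d := x.un) (y := b.un) f (d' := y.un) g
      exact ⟨ob hG P, p, q, h⟩
    · intro n
      exact iota_ns hG n
    · intro x
      obtain ⟨f⟩ := hS.from_a0 x.un
      exact ⟨inc hG f⟩
  · -- nd
    intro d b x
    exact exists_snd hS x
  · -- gen_α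
    intro τ
    exact (al_G hG (L := letters hS) τ (om0 hS τ)).trans (congrArg (inc hG) (bet_om0 hS τ))
  · -- gen_inv
    intro τ d s t h
    obtain ⟨om, h1, h2⟩ := om_of_rel hS τ h
    refine ⟨G hG τ om, ?_, ?_⟩
    · exact (G_inc hG (L := letters hS) τ om s).trans (congrArg (G hG (L := letters hS) τ) h1)
    · exact (G_inc hG (L := letters hS) τ om t).trans (congrArg (G hG (L := letters hS) τ) h2)
  · -- G1
    intro τ B A hA fA γA hfA hγA b' e y y' f t s hts
    obtain ⟨om, h1, h2⟩ := exists_omA hS τ hA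
    have e1 := fA_eq hS τ h1 hfA
    subst e1
    by_cases ht : Thru t (inc hG ((letters hS).al τ))
    · exact Or.inl ht
    · right
      have e2 : t ≫ G hG τ ((letters hS).hm τ y om) = s ≫ inc hG y' :=
        (congrArg (fun z => t ≫ z) (G_inc hG (L := letters hS) τ om y)).symm.trans hts
      obtain ⟨om', h3, -⟩ := new_fac hG τ _ ht y' s e2
      refine ⟨(letters hS).gam τ om', ?_⟩
      rw [← h2 γA hγA]
      exact ((letters hS).gam_nat τ y' om').symm.trans
        ((congrArg ((letters hS).gam τ) h3).trans ((letters hS).gam_nat τ y om))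
  · -- G3
    intro τ d p N h hp f g s hgs
    by_cases hs : Thru s (inc hG ((letters hS).al τ))
    · exact Or.inr hs
    left
    rcases cases_hom hG (x := τ.b) p with ⟨p0, hp0⟩ | ⟨t, om, m, hm, hp0⟩
    · exfalso
      apply N.N2
      obtain ⟨k, hk⟩ := N.N0 (e := d) (𝟙 _) p0 (by
        rw [Category.id_comp]; exact hp0)
      obtain ⟨k', h1, h2⟩ := old_div hG k N.π (𝟙 _) hk
      exact ⟨k', h2⟩
    · subst hp0
      obtain ⟨P, p1, q1, hpq⟩ := new_old hG m ((letters hS).al t) (Or.inr hm)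
      by_cases hg : Thru (g ≫ m) (inc hG ((letters hS).al t))
      · obtain ⟨k, hk⟩ := hg
        obtain ⟨w, h1, h2⟩ := hpq.2 g k hk.symm
        obtain ⟨w', h3⟩ := N.N0 (e := P) (inc hG p1) (q1 ≫ (letters hS).bet t om) (by
          show inc hG p1 ≫ m ≫ G hG t om = _
          rw [← Category.assoc, hpq.1, al_G', ← inc_comp])
        refine ⟨w ≫ w', ?_⟩
        rw [Category.assoc, h3, h1]
      · exfalso
        have e1 : (g ≫ m) ≫ G hG t om = s ≫ G hG τ (om0 hS τ) := by
          rw [Category.assoc]; exact hgs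
        obtain ⟨ht, h1, h2⟩ := nf_inj hG hg hs e1
        subst ht
        simp only at h1 h2
        subst h1 h2
        -- now `h ≫ m ≫ G = γ`
        by_cases hh : Thru (h ≫ m) (inc hG ((letters hS).al t))
        · obtain ⟨k, hk⟩ := hh
          have e2 : k ≫ inc hG ((letters hS).bet t (om0 hS t)) = inc hG t.γ := by
            rw [← al_G', hk, Category.assoc]; exact hp
          obtain ⟨k', h3, h4⟩ := old_div hG k _ _ e2
          apply hS.ι_not t.n
          refine ⟨k', ?_⟩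
          have h5 : k' ≫ ι t.n ≫ t.γ = t.γ :=
            (congrArg (fun z => k' ≫ z) (bet_om0 hS t)).symm.trans h4
          have := hS.mono t.γ
          exact (cancel_mono t.γ).1 ((Category.assoc _ _ _).trans
            (h5.trans (Category.id_comp t.γ).symm))
        · refine absurd ?_ (new_ne hG t (om0 hS t) hh t.γ)
          rw [Category.assoc]
          exact hp
  · -- G4
    intro τ d p
    by_cases h : ∃ om, (letters hS).hm τ p om = om0 hS τ
    · obtain ⟨om, h⟩ := h
      exact Or.inl (rel_of_hm hS τ om h)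
    · right
      intro f g s hgs
      by_contra hs
      obtain ⟨om', h1, -⟩ := new_fac hG τ (om0 hS τ) hs p g hgs.symm
      exact h ⟨om', h1⟩
  · -- G5
    intro τ B B' d A A' hA hA' fA fA' hfA hfA' u u' f s t hst
    obtain ⟨om, h1, -⟩ := exists_omA hS τ hA
    obtain ⟨om', h2, -⟩ := exists_omA hS τ hA'
    have e1 := fA_eq hS τ h1 hfA
    have e2 := fA_eq hS τ h2 hfA'
    subst e1 e2
    by_cases hs : Thru s (inc hG ((letters hS).al τ))
    · exact Or.inl hs
    by_cases ht : Thru t (inc hG ((letters hS).al τ))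
    · exact Or.inr (Or.inl ht)
    right; right
    have e3 : s ≫ G hG τ ((letters hS).hm τ u om) = t ≫ G hG τ ((letters hS).hm τ u' om') :=
      (congrArg (fun z => s ≫ z) (G_inc hG (L := letters hS) τ om u)).symm.trans
        (hst.trans (congrArg (fun z => t ≫ z) (G_inc hG (L := letters hS) τ om' u')))
    obtain ⟨h3, h4⟩ := nf_inj' hG hs ht e3
    exact ⟨h4, rel_of_hm_eq hS τ hA hA' om om' h1 h2 h3⟩
  · -- G6
    intro τ f s y hsy
    by_contra hs
    exact new_ne hG τ (om0 hS τ) hs y hsy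


include hS in
theorem exists_step' : ∃ st : Step S a ι, NC S → NC st.T := by
  obtain ⟨w, hw⟩ := exists_wstep' hS
  let s := P323.H14.star w.W (fun n => w.Φ.obj (a n)) (fun n => w.Φ.map (ι n)) w.stage
  let A : AStep w.W (fun n => w.Φ.obj (a n)) (fun n => w.Φ.map (ι n)) :=
    { T := s.T
      cat := s.cat
      Ψ := s.Ψ
      inj := s.inj
      faithful := s.faithful
      full := s.full
      src := s.src
      pb := s.pb
      stage := s.stage
      am := s.am
      jl := s.jl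
      jr := s.jr
      K1 := s.K1
      K2 := s.K2 }
  have : P323.H14.AM w.W := ⟨w.stage.mono⟩
  exact ⟨compose w A, fun h => nc_star (hw h)⟩

end

open Vale.Agent.P323.H709

/-- the step keeps `NC` -/
def Keep {ac kc : ℕ → UU} {R R' : Raw UU} (X : LD ac kc R R') : Prop :=
  letI := X.catS
  NC X.S → NC X.st.T

theorem exists_ext' {ac kc : ℕ → UU} {R : Raw UU} [Small.{0} R.S] {S : Type} [Category.{0} S]
    {a : ℕ → S} {ι : ∀ n, a n ⟶ a (n + 1)} (st : Step S a ι) (c : Coding S R)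
    (ha : ∀ n, c.code (𝟙 (a n)) = ac n) (hk : ∀ n, c.code (ι n) = kc n)
    (hN : NC S → NC st.T) :
    ∃ R' : Raw UU, Small.{0} R'.S ∧ RSt ac kc R' ∧ Good R R' ∧ ∃ X : LD ac kc R R', Keep X := by
  classical
  -- the injection
  obtain ⟨fr, hfr, hfr'⟩ := exists_fresh R.S (Σ x y : st.T, (x ⟶ y))
  let g : ∀ {x y : st.T}, (x ⟶ y) → UU := fun {x y} f =>
    if h : ∃ s, ∃ (x' y' : S) (f' : x' ⟶ y'), (⟨x, y, f⟩ : Σ x y : st.T, (x ⟶ y)) =
      ⟨st.Φ.obj x', st.Φ.obj y', st.Φ.map f'⟩ ∧ c.code f' = s then h.choose else fr ⟨x, y, f⟩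
  have key : ∀ {x' y' x'' y'' : S} {f' : x' ⟶ y'} {f'' : x'' ⟶ y''},
      (⟨st.Φ.obj x', st.Φ.obj y', st.Φ.map f'⟩ : Σ x y : st.T, (x ⟶ y)) =
        ⟨st.Φ.obj x'', st.Φ.obj y'', st.Φ.map f''⟩ →
      (⟨x', y', f'⟩ : Σ x y : S, (x ⟶ y)) = ⟨x'', y'', f''⟩ := by
    intro x' y' x'' y'' f' f'' h
    have h1 : x' = x'' := st.inj (congrArg Sigma.fst h)
    subst h1
    have h2 : st.Φ.obj y' = st.Φ.obj y'' := by
      have := (Sigma.mk.inj_iff.1 h).2
      have := eq_of_heq this
      exact congrArg Sigma.fst this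
    have h2 := st.inj h2
    subst h2
    have h3 : st.Φ.map f' = st.Φ.map f'' := by simpa using h
    rw [st.faithful h3]
  have gold : ∀ {x y : S} (f : x ⟶ y), g (st.Φ.map f) = c.code f := by
    intro x y f
    have h : ∃ s, ∃ (x' y' : S) (f' : x' ⟶ y'),
      (⟨st.Φ.obj x, st.Φ.obj y, st.Φ.map f⟩ : Σ x y : st.T, (x ⟶ y)) =
        ⟨st.Φ.obj x', st.Φ.obj y', st.Φ.map f'⟩ ∧ c.code f' = s := ⟨_, _, _, f, rfl, rfl⟩
    have e : g (st.Φ.map f) = h.choose := dif_pos h
    obtain ⟨x', y', f', h1, h2⟩ := h.choose_spec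
    rw [e, ← h2]
    have := key h1
    cases this
    rfl
  have gnew : ∀ {x y : st.T} (f : x ⟶ y), (∃ (x' y' : S) (f' : x' ⟶ y'),
      (⟨x, y, f⟩ : Σ x y : st.T, (x ⟶ y)) = ⟨st.Φ.obj x', st.Φ.obj y', st.Φ.map f'⟩) ∨
      g f = fr ⟨x, y, f⟩ := by
    intro x y f
    by_cases h : ∃ s, ∃ (x' y' : S) (f' : x' ⟶ y'), (⟨x, y, f⟩ : Σ x y : st.T, (x ⟶ y)) =
      ⟨st.Φ.obj x', st.Φ.obj y', st.Φ.map f'⟩ ∧ c.code f' = s
    · obtain ⟨s, x', y', f', h1, h2⟩ := h
      exact Or.inl ⟨x', y', f', h1⟩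
    · exact Or.inr (dif_neg h)
  have hg : ∀ {x y x' y' : st.T} (f : x ⟶ y) (f' : x' ⟶ y'), g f = g f' →
      (⟨x, y, f⟩ : Σ x y : st.T, (x ⟶ y)) = ⟨x', y', f'⟩ := by
    intro x y x' y' f f' h
    rcases gnew f with ⟨d, e, k, hk⟩ | h1
    · cases hk
      rcases gnew f' with ⟨d', e', k', hk'⟩ | h2
      · cases hk'
        rw [gold, gold] at h
        have := c.inj _ _ h
        cases this
        rfl
      · rw [gold, h2] at h
        exact absurd (c.mem k) (h ▸ hfr' _)
    · rcases gnew f' with ⟨d', e', k', hk'⟩ | h2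
      · cases hk'
        rw [gold, h1] at h
        exact absurd (c.mem k') (h ▸ hfr' _)
      · rw [h1, h2] at h
        exact hfr h
  let c' : Coding st.T (ofInj g) := ofInjCoding hg
  have compat : ∀ {x y : S} (f : x ⟶ y), c'.code (st.Φ.map f) = c.code f := gold
  refine ⟨ofInj g, ?_, ?_, ⟨⟨?_, ?_, ?_, ?_⟩, ?_, ?_⟩, ⟨⟨S, a, ι, st, c, c', compat, ha, hk⟩, hN⟩⟩
  · have : (ofInj g).S = Set.range (fun z : Σ x y : st.T, (x ⟶ y) => g z.2.2) := by
      ext s
      constructor
      · rintro ⟨x, y, f, rfl⟩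
        exact ⟨⟨x, y, f⟩, rfl⟩
      · rintro ⟨⟨x, y, f⟩, rfl⟩
        exact ⟨x, y, f, rfl⟩
    rw [this]
    infer_instance
  · refine c'.rst st.stage (fun n => ?_) (fun n => ?_)
    · rw [← st.Φ.map_id, compat, ha]
    · rw [compat, hk]
  · intro s hs
    obtain ⟨x, y, f, rfl⟩ := c.surj hs
    rw [← compat]
    exact c'.mem _
  · intro s hs
    obtain ⟨x, y, f, rfl⟩ := c.surj hs
    rw [c.src, ← compat, ← compat, c'.src, st.Φ.map_id]
  · intro s hs
    obtain ⟨x, y, f, rfl⟩ := c.surj hs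
    rw [c.tgt, ← compat, ← compat, c'.tgt, st.Φ.map_id]
  · intro s t hs ht h
    obtain ⟨x, y, f, rfl⟩ := c.surj hs
    obtain ⟨y', z, k, rfl⟩ := c.surj ht
    obtain rfl := c.ends_eq h
    rw [c.comp, ← compat, ← compat, ← compat, c'.comp, st.Φ.map_comp]
  · intro p q f k h
    obtain ⟨z, x, y, b, p, q, f, k, rfl, rfl, rfl, rfl, hpb⟩ := c.pb_lift h
    rw [← compat, ← compat, ← compat, ← compat]
    exact c'.pb_code (st.pb hpb)
  · intro x y hx hy hxy hc
    obtain ⟨y0, z, y, rfl⟩ := c.surj hy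
    obtain ⟨k, k', x, rfl⟩ := c'.surj hx
    rw [← compat] at hxy hc
    obtain rfl := c'.ends_eq hxy
    rw [c'.comp] at hc
    obtain ⟨x0, z0, r, hr⟩ := c.surj hc
    rw [← compat] at hr
    have e := c'.inj _ _ hr
    have e1 : st.Φ.obj x0 = k := congrArg Sigma.fst e
    subst e1
    have e2 : st.Φ.obj z0 = st.Φ.obj z := by
      have := eq_of_heq (Sigma.mk.inj_iff.1 e).2
      exact congrArg Sigma.fst this
    have e2 := st.inj e2
    subst e2
    have e3 : st.Φ.map r = x ≫ st.Φ.map y := by simpa using e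
    obtain ⟨m, rfl⟩ := st.div x y r e3.symm
    rw [compat]
    exact c.mem _

theorem exists_next' {ac kc : ℕ → UU} {R : Raw UU} (hR : RSt ac kc R)
    (hs : Small.{0} R.S) :
    ∃ R' : Raw UU, Small.{0} R'.S ∧ RSt ac kc R' ∧ Good R R' ∧ ∃ X : LD ac kc R R', Keep X := by
  obtain ⟨T, ⟨e⟩⟩ := hs
  let e' : T ≃ R.S := e.symm
  let c := toCoding R hR.cat e'
  have h1 : ∀ n, ∃ x : TO R hR.cat e', c.code (𝟙 x) = ac n := fun n =>
    c.obj (hR.a_mem n) (hR.a_src n)
  choose a ha using h1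
  have h2 : ∀ n, ∃ f : a n ⟶ a (n + 1), c.code f = kc n := fun n =>
    c.lift (hR.k_mem n) (by rw [hR.k_src, ha]) (by rw [hR.k_tgt, ha])
  choose ι hk using h2
  obtain ⟨st, hN⟩ := exists_step' (c.stage hR ha hk)
  have : Small.{0} R.S := ⟨T, ⟨e⟩⟩
  exact exists_ext' st c ha hk hN


theorem exists_base' : ∃ (R : Raw UU) (ac kc : ℕ → UU), R.S.Countable ∧ RSt ac kc R := by
  obtain ⟨fr, hfr, -⟩ := exists_fresh (∅ : Set UU) (Σ x y : ℕ, (x ⟶ y))
  let g : ∀ {x y : ℕ}, (x ⟶ y) → UU := fun {x y} f => fr ⟨x, y, f⟩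
  have hg : ∀ {x y x' y' : ℕ} (f : x ⟶ y) (f' : x' ⟶ y'), g f = g f' →
      (⟨x, y, f⟩ : Σ x y : ℕ, (x ⟶ y)) = ⟨x', y', f'⟩ := fun _ _ h => hfr h
  let c : Coding ℕ (ofInj g) := ofInjCoding hg
  refine ⟨ofInj g, fun n => c.code (𝟙 n), fun n => c.code (homOfLE (Nat.le_succ n)), ?_,
    c.rst isStage_nat (fun _ => rfl) (fun _ => rfl)⟩
  have : (ofInj g).S = Set.range (fun z : Σ x y : ℕ, (x ⟶ y) => g z.2.2) := by
    ext s
    constructor
    · rintro ⟨x, y, f, rfl⟩
      exact ⟨⟨x, y, f⟩, rfl⟩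
    · rintro ⟨⟨x, y, f⟩, rfl⟩
      exact ⟨x, y, f, rfl⟩
  rw [this]
  exact Set.countable_range _

/-! ### The recursion -/

section Tower

variable (ac kc : ℕ → UU)

open Classical in
/-- the successor stage -/
noncomputable def next' (R : Raw UU) : Raw UU :=
  if h : ∃ R' : Raw UU, Small.{0} R'.S ∧ RSt ac kc R' ∧ Good R R' ∧ ∃ X : LD ac kc R R', Keep X
  then h.choose else R

/-- the stages -/
noncomputable def stg' (R0 : Raw UU) (i : Ordinal.{0}) : Raw UU :=
  Ordinal.limitRecOn (motive := fun _ => Raw UU) i R0 (fun _ R => next' ac kc R)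
    (fun i _ F => union (fun j : Set.Iio i => F j.1 j.2))

variable {ac kc}

theorem next_spec' {R : Raw UU} (hR : RSt ac kc R) (hs : Small.{0} R.S) :
    Small.{0} (next' ac kc R).S ∧ RSt ac kc (next' ac kc R) ∧ Good R (next' ac kc R) ∧
      ∃ X : LD ac kc R (next' ac kc R), Keep X := by
  have h := exists_next' hR hs
  have e : next' ac kc R = h.choose := dif_pos h
  rw [e]
  exact h.choose_spec

variable {R0 : Raw UU}

theorem stg_zero' : stg' ac kc R0 0 = R0 := Ordinal.limitRecOn_zero ..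

theorem stg_succ' (i : Ordinal.{0}) : stg' ac kc R0 (i + 1) = next' ac kc (stg' ac kc R0 i) :=
  Ordinal.limitRecOn_add_one ..

theorem stg_lim' {i : Ordinal.{0}} (hi : Order.IsSuccLimit i) :
    stg' ac kc R0 i = union (fun j : Set.Iio i => stg' ac kc R0 j.1) :=
  Ordinal.limitRecOn_limit _ _ _ _ hi

theorem stg_spec' (h0 : Small.{0} R0.S) (h0' : RSt ac kc R0) (i : Ordinal.{0}) :
    Small.{0} (stg' ac kc R0 i).S ∧ RSt ac kc (stg' ac kc R0 i) ∧
      ∀ j, j ≤ i → Good (stg' ac kc R0 j) (stg' ac kc R0 i) := by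
  induction i using Ordinal.limitRecOn with
  | zero =>
    refine ⟨by rw [stg_zero']; exact h0, by rw [stg_zero']; exact h0', ?_⟩
    intro j hj
    have : j = 0 := le_antisymm hj zero_le
    subst this
    exact Good.refl _
  | add_one i ih =>
    obtain ⟨h1, h2, h3⟩ := ih
    obtain ⟨n1, n2, n3, -⟩ := next_spec' h2 h1
    refine ⟨by rw [stg_succ']; exact n1, by rw [stg_succ']; exact n2, ?_⟩
    intro j hj
    rcases eq_or_lt_of_le hj with rfl | hj
    · exact Good.refl _
    · rw [stg_succ']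
      exact (h3 j (Order.lt_add_one_iff.1 hj)).trans n3
  | limit i hi ih =>
    have hdir : ∀ j k : Set.Iio i, ∃ l : Set.Iio i,
        Good (stg' ac kc R0 j.1) (stg' ac kc R0 l.1) ∧ Good (stg' ac kc R0 k.1) (stg' ac kc R0 l.1) := by
      intro j k
      rcases le_total j.1 k.1 with h | h
      · exact ⟨k, (ih k.1 k.2).2.2 _ h, Good.refl _⟩
      · exact ⟨j, Good.refl _, (ih j.1 j.2).2.2 _ h⟩
    have hpos : (0 : Ordinal.{0}) < i := hi.bot_lt
    have : Nonempty (Set.Iio i) := ⟨⟨0, hpos⟩⟩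
    refine ⟨?_, ?_, ?_⟩
    · rw [stg_lim' hi]
      have : (union (fun j : Set.Iio i => stg' ac kc R0 j.1)).S =
          ⋃ j : Set.Iio i, (stg' ac kc R0 j.1).S := by
        ext s
        rw [Set.mem_iUnion]
        exact Iff.rfl
      rw [this]
      have : ∀ j : Set.Iio i, Small.{0} (stg' ac kc R0 j.1).S := fun j => (ih j.1 j.2).1
      exact small_iUnion _
    · rw [stg_lim' hi]
      exact union_st (F := fun j : Set.Iio i => stg' ac kc R0 j.1) hdir
        (fun j => (ih j.1 j.2).2.1)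
    · intro j hj
      rcases eq_or_lt_of_le hj with rfl | hj
      · exact Good.refl _
      · rw [stg_lim' hi]
        exact union_good (F := fun j : Set.Iio i => stg' ac kc R0 j.1) hdir ⟨j, hj⟩

end Tower

/-- **the chain**: base category of the tower and a chart at every stage -/
theorem exists_charts' : ∃ (D : Type 1) (_ : Category.{1} D) (_ : TwBase D),
    {f : Σ x y : D, (x ⟶ y) | Mem 0 f.2.2}.Countable ∧
    ∀ i : Ordinal.{0}, ∃ C : Chart D i, NC C.S → NC C.st.T := by
  obtain ⟨R0, ac, kc, h00, h0'⟩ := exists_base'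
  have h0 : Small.{0} R0.S := by
    have := h00.to_subtype
    infer_instance
  have spec := stg_spec' h0 h0'
  let F : Ordinal.{0} → Raw UU := fun i => stg' ac kc R0 i
  have hdir : ∀ j k, ∃ l, Good (F j) (F l) ∧ Good (F k) (F l) := by
    intro j k
    rcases le_total j k with h | h
    · exact ⟨k, (spec k).2.2 _ h, Good.refl _⟩
    · exact ⟨j, Good.refl _, (spec j).2.2 _ h⟩
  have L : ∀ i, Good (F i) (union F) := union_good hdir
  have hst : RSt ac kc (union F) := union_st hdir (fun j => (spec j).2.1)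
  have hcat := hst.cat
  let D := TO (union F) hcat (Equiv.refl _)
  let c : Coding D (union F) := toCoding (union F) hcat (Equiv.refl _)
  have h1 : ∀ n, ∃ x : D, c.code (𝟙 x) = ac n := fun n => c.obj (hst.a_mem n) (hst.a_src n)
  choose a ha using h1
  have h2 : ∀ n, ∃ f : a n ⟶ a (n + 1), c.code f = kc n := fun n =>
    c.lift (hst.k_mem n) (by rw [hst.k_src, ha]) (by rw [hst.k_tgt, ha])
  choose ι hk using h2
  have hS : IsStage D a ι := c.stage hst ha hk
  have hcl : ∀ i, IsCat (F i) := fun i => (spec i).2.1.cat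
  have srcF : ∀ {i : Ordinal.{0}} {x y : D} {f : x ⟶ y}, c.code f ∈ (F i).S →
      (F i).src (c.code f) = c.code (𝟙 x) := by
    intro i x y f hf
    rw [← (L i).le.src hf, c.src]
  have tgtF : ∀ {i : Ordinal.{0}} {x y : D} {f : x ⟶ y}, c.code f ∈ (F i).S →
      (F i).tgt (c.code f) = c.code (𝟙 y) := by
    intro i x y f hf
    rw [← (L i).le.tgt hf, c.tgt]
  let B : TwBase D :=
    { Mem := fun i {x y} f => c.code f ∈ (F i).S
      mono := hS.mono
      mem_src := by
        intro i x y f hf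
        show c.code (𝟙 x) ∈ (F i).S
        rw [← srcF hf]
        exact (hcl i).src_mem hf
      mem_tgt := by
        intro i x y f hf
        show c.code (𝟙 y) ∈ (F i).S
        rw [← tgtF hf]
        exact (hcl i).tgt_mem hf
      mem_comp := by
        intro i x y z f g hf hg
        show c.code (f ≫ g) ∈ (F i).S
        have e : (F i).tgt (c.code f) = (F i).src (c.code g) := by rw [tgtF hf, srcF hg]
        rw [← c.comp, (L i).le.comp hf hg e]
        exact (hcl i).comp_mem hf hg e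
      mem_mono := by
        intro i j x y f hij hf
        exact ((spec j).2.2 i hij).le.sub hf
      mem_div := by
        intro i x y z f g hfg hg
        refine (L i).div (c.mem f) hg (by rw [c.tgt, c.src]) ?_
        rw [c.comp]
        exact hfg
      mem_lim := by
        intro i hi x y f hf
        have hf : c.code f ∈ (stg' ac kc R0 i).S := hf
        rw [stg_lim' hi] at hf
        obtain ⟨j, hj⟩ := hf
        exact ⟨j.1, j.2, hj⟩
      mem_ex := fun f => c.mem f
      small := by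
        intro i
        have : Small.{0} (F i).S := (spec i).1
        refine small_of_injective (β := (F i).S) (f := fun z => ⟨c.code z.1.2.2, z.2⟩) ?_
        rintro ⟨⟨x, y, f⟩, hf⟩ ⟨⟨x', y', f'⟩, hf'⟩ h
        refine Subtype.ext ?_
        have h' : c.code f = c.code f' := congrArg (fun s : (F i).S => s.1) h
        exact c.inj _ _ h'
      pb := by
        intro i x y b f g hf hg
        obtain ⟨p, q, hpq⟩ := (spec i).2.1.pbx hf hg (by rw [tgtF hf, tgtF hg])
        have hpq' := (L i).pb hpq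
        have hp := hpq.hp
        have hq := hpq.hq
        obtain ⟨z, x', p, rfl⟩ := c.surj hpq'.hp
        obtain rfl := c.ends_eq hpq'.pf
        have e1 := hpq'.pq
        rw [c.src] at e1
        have e2 := hpq'.qg
        rw [c.src] at e2
        obtain ⟨q, rfl⟩ := c.lift hpq'.hq e1.symm e2
        exact ⟨z, p, q, hp, hq, c.pb_uncode hpq'⟩
      a := a
      ι := ι
      ι_mem := by
        intro n
        show c.code (ι n) ∈ (F 0).S
        rw [hk]
        exact (spec 0).2.1.k_mem n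
      ι_not := hS.ι_not
      from_a0 := hS.from_a0 }
  refine ⟨D, inferInstance, B, ?_, ?_⟩
  · refine (h00.preimage_of_injOn (f := fun z : Σ x y : D, (x ⟶ y) => c.code z.2.2)
      fun z _ z' _ h => c.inj _ _ h).mono fun z hz => ?_
    have hz : c.code z.2.2 ∈ (stg' ac kc R0 0).S := hz
    rwa [stg_zero'] at hz
  intro i
  have hn := (next_spec' (spec i).2.1 (spec i).1).2.2.2
  rw [← stg_succ'] at hn
  obtain ⟨X, hX⟩ := hn
  let _ := X.catS
  let Fn : X.st.T ⥤ D := fun' X.c' (L (i + 1)).le hcat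
  have fc : ∀ {x y : X.st.T} (f : x ⟶ y), c.code (Fn.map f) = X.c'.code f := fun _ => rfl
  have fo : ∀ (x : X.st.T), c.code (𝟙 (Fn.obj x)) = X.c'.code (𝟙 x) := fun _ => rfl
  have fo' : ∀ (x : X.S), c.code (𝟙 (Fn.obj (X.st.Φ.obj x))) = X.c.code (𝟙 x) := fun x => by
    rw [fo, ← X.st.Φ.map_id, X.compat]
  have hobj : ∀ n, a n = Fn.obj (X.st.Φ.obj (X.a n)) := fun n => by
    refine c.obj_inj ?_
    rw [ha, fo', X.ha]
  refine ⟨@Chart.mk D _ B i X.S X.catS X.a X.ι X.st Fn ?_ ?_ ?_ ?_ ?_ ?_ ?_ ?_ ?_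
    (fun n => eqToIso (hobj n)) ?_ ?_ ?_, hX⟩
  · intro x y h
    refine X.c'.obj_inj ?_
    rw [← fo, ← fo, h]
  · intro x y f g h
    refine X.c'.hom_inj ?_
    rw [← fc, ← fc, h]
  · intro x y f
    show c.code (Fn.map f) ∈ (F (i + 1)).S
    rw [fc]
    exact X.c'.mem f
  · intro x hx
    have hx : c.code (𝟙 x) ∈ (F (i + 1)).S := hx
    obtain ⟨x', hx'⟩ := X.c'.obj hx (by rw [← (L (i + 1)).le.src hx, c.src])
    exact ⟨x', c.obj_inj (by rw [fo, hx'])⟩
  · intro x y g hg
    have hg : c.code g ∈ (F (i + 1)).S := hg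
    obtain ⟨f, hf⟩ := X.c'.lift (x := x) (y := y) hg (srcF hg) (tgtF hg)
    exact ⟨f, c.hom_inj (by rw [fc, hf])⟩
  · intro z x y b p q f g h
    exact c.pb_uncode ((L (i + 1)).pb (X.c'.pb_code h))
  · intro x y f
    show c.code (Fn.map (X.st.Φ.map f)) ∈ (F i).S
    rw [fc, X.compat]
    exact X.c.mem f
  · intro x hx
    have hx : c.code (𝟙 x) ∈ (F i).S := hx
    obtain ⟨x', hx'⟩ := X.c.obj hx (by rw [← (L i).le.src hx, c.src])
    exact ⟨x', c.obj_inj (by rw [fo', hx'])⟩
  · intro x y g hg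
    have hg : c.code g ∈ (F i).S := hg
    obtain ⟨f, hf⟩ := X.c.lift (x := x) (y := y) hg ((srcF hg).trans (fo' x))
      ((tgtF hg).trans (fo' y))
    exact ⟨f, c.hom_inj (by rw [fc, X.compat, hf])⟩
  · intro n
    show c.code (eqToHom (hobj n)) ∈ (F i).S
    rw [c.code_eqToHom, ha]
    exact (spec i).2.1.a_mem n
  · intro n
    show c.code (eqToHom (hobj n).symm) ∈ (F i).S
    rw [c.code_eqToHom', ha]
    exact (spec i).2.1.a_mem n
  · intro n
    refine c.hom_inj ?_
    show c.code (ι n ≫ eqToHom (hobj (n + 1))) = c.code (eqToHom (hobj n) ≫ Fn.map (X.st.Φ.map (X.ι n)))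
    rw [c.code_comp_eqToHom, c.code_eqToHom_comp, fc, X.compat, X.hk, hk]


end Vale.Agent.N323D
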